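import Claimed.Agent.R252.Prep.Parts
import Claimed.Agent.R252.S6b.SheetContract
import Claimed.Agent.R252.Remez.Mv

/-! PACKED FILE (helper29, closed unit PREP-H1 `kpr_graph`, FROZEN): parts Defs, Ana, AnaMain.  Each part is wrapped in its own `section`. -/

section PkPrepH1Defs

/-!
# ROW 252 (S0492), unit PREP, hub H1 `kpr_graph` (stable graphs, 04 l.730-800; architect helper29): DEFINITIONS.      No `sorry` in this file.

## The construction (everything is explicit; `n = v.j + 1`)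
* `kpr1Iso j : ℝ × (Fin j → ℝ) ≃ₗᵢ (Fin (j+1) → ℝ)`, `kpr1E u = Fin.cons u.1 u.2` : unit coordinates of a label as a point `x ∈ ℝ^n` (sup norms, so an isometry; volume preserving).
* `Kpr1Q n` : a polynomial `al w² + be (x) w + ga (x)` (`al` a NUMBER, `deg be ≤ 1`, `deg ga ≤ 2`) = a test in the unit coordinates of a label.  `val`, `dw`, `disc = be² - 4 al ga`.
* `P.gr k x` : THE graph of kind `k` : `(sgn k √disc - be) / (2 al)` (`sgn centre = 0` : the quadratic centre), `- ga / be` if `al = 0`.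
* `kpr1Tf R Q`, `kpr1Nf R Q` : the forms of the fitted test `R.tst Q` and of the native test `R.nat (R.lpar Q)`.
* a CANDIDATE entry `c : Kpr1C R = Lab × ℤ^n × KsKind` = (label, cell of the grid of mesh `2ρ`, kind); `kpr1On c` = the incidences of the label which lie over the cell and have the kind `c.2.2`
  (kind = `centre` if `1 ≤ |2 al| a H`, else the sign of the incidence derivative).
* `kpr1S` : the finite set of the HEAVY candidates (label mass `≥ q ν_Q / K₁`, entry mass `≥ q ν_Q / K₂`, positive mass).    `Ent := {c // c ∈ kpr1S}`.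
* `kpr1F` : the kept incidences: at every required depth they lie on a heavy candidate.
* `kpr1Dat` : the entry data.
-/

set_option autoImplicit false

namespace Claimed.Agent.R252

open MeasureTheory MvPolynomial
open scoped ENNReal BigOperators

noncomputable section

/-! ## 1. The coordinates -/

/-- `(t, y) ↦ (t, y₁, .., y_j)` -/
def kpr1E {j : ℕ} (u : ℝ × (Fin j → ℝ)) : Fin (j + 1) → ℝ := Fin.cons u.1 u.2

theorem kpr1_E_zero {j : ℕ} (u : ℝ × (Fin j → ℝ)) : kpr1E u 0 = u.1 := rfl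

theorem kpr1_E_succ {j : ℕ} (u : ℝ × (Fin j → ℝ)) (i : Fin j) : kpr1E u i.succ = u.2 i := rfl

theorem kpr1_E_norm {j : ℕ} (u : ℝ × (Fin j → ℝ)) : ‖kpr1E u‖ = ‖u‖ := by
  refine le_antisymm ?_ ?_
  · refine (pi_norm_le_iff_of_nonneg (norm_nonneg _)).2 fun i => ?_
    refine Fin.cases ?_ (fun i => ?_) i
    · exact norm_fst_le u
    · exact (norm_le_pi_norm u.2 i).trans (norm_snd_le u)
  · rw [Prod.norm_def]
    refine max_le ?_ ?_
    · exact norm_le_pi_norm (kpr1E u) 0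
    · exact (pi_norm_le_iff_of_nonneg (norm_nonneg _)).2 fun i => norm_le_pi_norm (kpr1E u) i.succ

/-- the same map as a linear isometry -/
def kpr1Iso (j : ℕ) : (ℝ × (Fin j → ℝ)) ≃ₗᵢ[ℝ] (Fin (j + 1) → ℝ) where
  toFun := kpr1E
  invFun x := (x 0, Fin.tail x)
  map_add' u u' := by
    funext i
    refine Fin.cases ?_ (fun i => ?_) i <;> rfl
  map_smul' c u := by
    funext i
    refine Fin.cases ?_ (fun i => ?_) i <;> rfl
  left_inv u := rfl
  right_inv x := Fin.cons_self_tail x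
  norm_map' u := kpr1_E_norm u

theorem kpr1_iso_apply {j : ℕ} (u : ℝ × (Fin j → ℝ)) : kpr1Iso j u = kpr1E u := rfl

theorem kpr1_iso_symm_apply {j : ℕ} (x : Fin (j + 1) → ℝ) : (kpr1Iso j).symm x = (x 0, Fin.tail x) := rfl

theorem kpr1_E_symm {j : ℕ} (x : Fin (j + 1) → ℝ) : kpr1E ((kpr1Iso j).symm x) = x := (kpr1Iso j).apply_symm_apply x

/-! ## 2. Quadratics in the hidden variable -/

/-- `al w² + be (x) w + ga (x)` -/
structure Kpr1Q (n : ℕ) where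
  al : ℝ
  be : MvPolynomial (Fin n) ℝ
  ga : MvPolynomial (Fin n) ℝ

instance (n : ℕ) : Nonempty (Kpr1Q n) := ⟨⟨0, 0, 0⟩⟩

namespace Kpr1Q

variable {n : ℕ} (P : Kpr1Q n)

def val (x : Fin n → ℝ) (w : ℝ) : ℝ := P.al * w ^ 2 + eval x P.be * w + eval x P.ga

def dw (x : Fin n → ℝ) (w : ℝ) : ℝ := 2 * P.al * w + eval x P.be

/-- the discriminant, a polynomial of degree `≤ 2` -/
def disc : MvPolynomial (Fin n) ℝ := P.be ^ 2 - C (4 * P.al) * P.ga

structure Deg : Prop where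
  be : P.be.totalDegree ≤ 1
  ga : P.ga.totalDegree ≤ 2

/-- **the graph of kind `k`** -/
def gr (k : KsKind) (x : Fin n → ℝ) : ℝ :=
  if P.al = 0 then -eval x P.ga / eval x P.be else (k.sgn * √(eval x P.disc) - eval x P.be) / (2 * P.al)

end Kpr1Q

open Classical in
/-- the kind of an incidence: `al` = leading coefficient, `a` = thickness, `H` = curvature threshold, `σ` = "the incidence derivative is positive" -/
def kpr1K (al a H : ℝ) (σ : Bool) : KsKind :=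
  if 1 ≤ |2 * al| * a * H then KsKind.centre else if σ then KsKind.plus else KsKind.minus

/-- the pointwise numerical facts at a retained incidence (`P` fitted, `Ps` native, `x` unit base, `w` hidden coordinate) -/
structure Kpr1Pt {n : ℕ} (P Ps : Kpr1Q n) (K a : ℝ) (x : Fin n → ℝ) (w : ℝ) : Prop where
  x_bd : ‖x‖ ≤ K
  val : |P.val x w| ≤ K * a
  dw_hi : |P.dw x w| ≤ K
  dw_lo : 1 ≤ K * |P.dw x w|
  ww : |2 * P.al| * a ≤ K
  nval : |Ps.val x w| ≤ K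
  ndw : |Ps.dw x w| ≤ K
  nww : |2 * Ps.al| ≤ K

/-- **what an entry must satisfy**, in the coordinates `x ∈ ℝ^n` -/
structure Kpr1Good {n : ℕ} (ord : ℕ) (P Ps : Kpr1Q n) (k : KsKind) (uc : Fin n → ℝ) (ρ K' : ℝ) : Prop where
  root : k ≠ KsKind.centre → ∀ x ∈ Metric.ball uc (2 * ρ),
    P.val x (P.gr k x) = 0 ∧ 1 ≤ K' * (k.sgn * P.dw x (P.gr k x)) ∧ |P.dw x (P.gr k x)| ≤ K'
  ctr : k = KsKind.centre → ∀ x ∈ Metric.ball uc (2 * ρ), P.dw x (P.gr k x) = 0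
  smooth : ContDiffOn ℝ ord (fun x => Ps.val x (P.gr k x)) (Metric.ball uc (2 * ρ))
  der : ∀ x ∈ Metric.ball uc (2 * ρ), ∀ i ≤ ord, ‖iteratedFDeriv ℝ i (fun x => Ps.val x (P.gr k x)) x‖ ≤ K'

/-- the polynomial under the square root of the sheet of an entry -/
def kpr1Dl {n : ℕ} (P : Kpr1Q n) (k : KsKind) : MvPolynomial (Fin n) ℝ := if k = KsKind.centre then 1 else P.disc

/-- **the sheet `A + B √Δ / Δ^k` of `Ps (x, G_k (x))`** -/
def kpr1Sh {n : ℕ} (P Ps : Kpr1Q n) (k : KsKind) : k6b_Sheet n :=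
  if P.al = 0 then
    { A := Ps.ga
      B := C k.sgn * P.be * (C Ps.al * P.ga ^ 2 - Ps.be * P.ga * P.be)
      k := 2 }
  else
    { A := C (Ps.al / (4 * P.al ^ 2)) * (C (k.sgn ^ 2) * P.disc + P.be ^ 2) - C (1 / (2 * P.al)) * (Ps.be * P.be) + Ps.ga
      B := C k.sgn * (C (1 / (2 * P.al)) * Ps.be - C (Ps.al / (2 * P.al ^ 2)) * P.be)
      k := 0 }

/-! ## 3. The grid -/

/-- the cell of the grid of mesh `2ρ` -/
def kpr1Idx {n : ℕ} (ρ : ℝ) (x : Fin n → ℝ) : Fin n → ℤ := fun i => ⌊x i / (2 * ρ)⌋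

/-- the centre of a cell -/
def kpr1Ctr {n : ℕ} (ρ : ℝ) (m : Fin n → ℤ) : Fin n → ℝ := fun i => (2 * (m i : ℝ) + 1) * ρ

/-! ## 4. The record level -/

variable {v : KbVer}

/-- `P` is the form of the test `T` in the unit coordinates of the label `Q` -/
def kpr1IsForm (R : KsRef v) (Q : R.Lab) (T : KbTest v) (P : Kpr1Q (v.j + 1)) : Prop :=
  P.Deg ∧ ∀ (u : ℝ × KbB v) (w : ℝ), T (R.ofUnit Q u).1 (R.ofUnit Q u).2 w = P.val (kpr1E u) w

/-- a form of `T` (exists if `T` is quadratic: `kpr1_form_ex`) -/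
def kpr1Form (R : KsRef v) (Q : R.Lab) (T : KbTest v) : Kpr1Q (v.j + 1) := Classical.epsilon (kpr1IsForm R Q T)

/-- the fitted test of a label -/
def kpr1Tf (R : KsRef v) (Q : R.Lab) : Kpr1Q (v.j + 1) := kpr1Form R Q (R.tst Q)

/-- the native test of the parent of a label -/
def kpr1Nf (R : KsRef v) (Q : R.Lab) : Kpr1Q (v.j + 1) := kpr1Form R Q (R.nat (R.lpar Q))

/-- the unit base point of an incidence, in `ℝ^n` -/
def kpr1X (R : KsRef v) (Q : R.Lab) (p : R.L × ℝ) : Fin (v.j + 1) → ℝ := kpr1E (R.unit Q (R.base p))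

/-- "the incidence derivative of the fitted test is positive" (same `Decidable` instance as in `KsRef.EntFac`) -/
def kpr1Sg (R : KsRef v) (Q : R.Lab) (p : R.L × ℝ) : Bool := decide (0 < R.ev (kbDw (R.tst Q)) p.1 p.2)

/-- candidate entries -/
abbrev Kpr1C (R : KsRef v) : Type := R.Lab × (Fin (v.j + 1) → ℤ) × KsKind

/-- the candidate of (label, exact base, sign) -/
def kpr1Phi (R : KsRef v) (ρ H : ℝ) (Q : R.Lab) (z : ℝ × KbB v) (σ : Bool) : Kpr1C R :=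
  (Q, kpr1Idx ρ (kpr1E (R.unit Q z)), kpr1K (kpr1Tf R Q).al (R.a (R.dep Q)) H σ)

/-- the incidences which carry the candidate `c` -/
def kpr1On (R : KsRef v) (ρ H : ℝ) (c : Kpr1C R) : Set (R.L × ℝ) :=
  R.inc c.1 ∩ {p | kpr1Phi R ρ H c.1 (R.base p) (kpr1Sg R c.1 p) = c}

/-- heavy candidates -/
structure Kpr1Heavy (R : KsRef v) (ρ H K₁ K₂ : ℝ) (c : Kpr1C R) : Prop where
  pos : 0 < R.lam0 (kpr1On R ρ H c)
  lab : ENNReal.ofReal (R.q c.1) * R.νQ c.1 ≤ ENNReal.ofReal K₁ * R.lam0 (R.inc c.1)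
  ent : ENNReal.ofReal (R.q c.1) * R.νQ c.1 ≤ ENNReal.ofReal K₂ * R.lam0 (kpr1On R ρ H c)

/-- the three kinds -/
def kpr1Kinds : Finset KsKind := {KsKind.plus, KsKind.minus, KsKind.centre}

/-- all candidates with cells in the box `|m_i| ≤ M₀` -/
def kpr1All (R : KsRef v) (M₀ : ℕ) : Finset (Kpr1C R) :=
  Finset.univ ×ˢ (Fintype.piFinset fun _ => Finset.Icc (-(M₀ : ℤ)) (M₀ : ℤ)) ×ˢ kpr1Kinds

open Classical in
/-- **the entries** -/
def kpr1S (R : KsRef v) (ρ H K₁ K₂ : ℝ) (M₀ : ℕ) : Finset (Kpr1C R) := (kpr1All R M₀).filter (Kpr1Heavy R ρ H K₁ K₂)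

/-- **the kept incidences** -/
def kpr1F (R : KsRef v) (ρ H K₁ K₂ : ℝ) (M₀ : ℕ) : Set (R.L × ℝ) :=
  {p | ∀ s ∈ R.depths, ∃ c ∈ kpr1S R ρ H K₁ K₂ M₀, R.dep c.1 = s ∧ p ∈ kpr1On R ρ H c}

open Classical in
/-- a selector: the element of the finite family `S` which carries `p` at the depth `s` (default `e₀`) -/
def kpr1Sel (R : KsRef v) (ρ H : ℝ) (S : Finset (Kpr1C R)) (e₀ : {c // c ∈ S}) (s : ℝ) (p : R.L × ℝ) : {c // c ∈ S} :=
  if h : ∃ e : {c // c ∈ S}, R.dep e.1.1 = s ∧ p ∈ kpr1On R ρ H e.1 then h.choose else e₀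

open Classical in
/-- the factor map of `EntFac` -/
def kpr1Fac (R : KsRef v) (ρ H : ℝ) (S : Finset (Kpr1C R)) (e₀ : {c // c ∈ S}) (Q : R.Lab) (z : ℝ × KbB v) (σ : Bool) : {c // c ∈ S} :=
  if h : kpr1Phi R ρ H Q z σ ∈ S then ⟨_, h⟩ else e₀

/-- **the entry data** -/
def kpr1Dat (R : KsRef v) (ρ H : ℝ) (S : Finset (Kpr1C R)) (e₀ : {c // c ∈ S}) : KsEntData R where
  Ent := {c // c ∈ S}
  fEnt := inferInstance
  eLab e := e.1.1
  eCtr e := (kpr1Iso v.j).symm (kpr1Ctr ρ e.1.2.1)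
  eRad _ := ρ
  eKind e := e.1.2.2
  eG e z := (kpr1Tf R e.1.1).gr e.1.2.2 (kpr1E (R.unit e.1.1 z))
  ent := kpr1Sel R ρ H S e₀

end

end Claimed.Agent.R252

end PkPrepH1Defs

section PkPrepH1Ana

/-!
# ROW 252 (S0492), unit PREP, hub H1 `kpr_graph`: CONTRACT file 1 = THE ANALYSIS IN `ℝ^n` (no records, no measures on trajectories).      Leaves L-252-KPR1-A*.

Every `sorry` is a PAPER-FREE leaf; the complete proof is in the docstring.  Prove IN PLACE (splice only your theorem); sorried neighbours may be cited.  Private helper lemmas: prefix `kpr1a_`.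
Definitions: `Prep/H1/Defs.lean` (`Kpr1Q`, `val`, `dw`, `disc`, `gr`, `kpr1K`, `Kpr1Pt`, `Kpr1Good`, `kpr1Dl`, `kpr1Sh`).   Tools: `S6b/Sq*.lean` (sheets; all proved), `Remez/Mv.lean` (all proved).
EXIT of this file: `kpr1_ana` (proved in `H1/AnaMain.lean` from the leaves).
-/

set_option autoImplicit false

namespace Claimed.Agent.R252

open MeasureTheory MvPolynomial
open scoped ENNReal BigOperators

noncomputable section

variable {n : ℕ}

/-! ## A1 : algebra of one quadratic -/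

/-- **L-252-KPR1-A1** (all five; 60 l.)  `totalDegree_sub_le`/`totalDegree_add`, `totalDegree_pow`, `totalDegree_mul`, `totalDegree_C`. -/
theorem kpr1_disc_deg (P : Kpr1Q n) (h : P.Deg) : P.disc.totalDegree ≤ 2 := by
  unfold Kpr1Q.disc
  refine (totalDegree_sub _ _).trans (max_le ?_ ?_)
  · refine (totalDegree_pow _ _).trans ?_
    have := h.be
    omega
  · refine (totalDegree_mul _ _).trans ?_
    rw [totalDegree_C]
    have := h.ga
    omega

/-- `disc = P_w² - 2 P_ww P` at every `w` (unfold, `simp [map_sub, map_mul, map_pow]`, `ring`) -/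
theorem kpr1_disc_eval (P : Kpr1Q n) (x : Fin n → ℝ) (w : ℝ) : eval x P.disc = P.dw x w ^ 2 - 2 * (2 * P.al) * P.val x w := by
  unfold Kpr1Q.disc Kpr1Q.dw Kpr1Q.val
  simp only [map_sub, map_mul, map_pow, eval_C]
  ring

theorem kpr1_sgn_sq {k : KsKind} (hk : k ≠ KsKind.centre) : k.sgn ^ 2 = 1 := by
  cases k
  · simp [KsKind.sgn]
  · simp [KsKind.sgn]
  · exact absurd rfl hk

/-- the graph for `al ≠ 0` (`if_neg`, `field_simp`, `Real.sq_sqrt`) -/
theorem kpr1_root_ne (P : Kpr1Q n) (k : KsKind) (x : Fin n → ℝ) (hal : P.al ≠ 0) (hd : 0 ≤ eval x P.disc) :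
    P.dw x (P.gr k x) = k.sgn * √(eval x P.disc) ∧ (k ≠ KsKind.centre → P.val x (P.gr k x) = 0) := by
  have hg : P.gr k x = (k.sgn * √(eval x P.disc) - eval x P.be) / (2 * P.al) := by
    unfold Kpr1Q.gr
    rw [if_neg hal]
  have h1 : P.dw x (P.gr k x) = k.sgn * √(eval x P.disc) := by
    rw [hg]
    unfold Kpr1Q.dw
    field_simp
    ring
  refine ⟨h1, fun hk => ?_⟩
  have h2 := kpr1_disc_eval P x (P.gr k x)
  rw [h1, mul_pow, kpr1_sgn_sq hk, one_mul, Real.sq_sqrt hd] at h2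
  have h3 : 2 * (2 * P.al) * P.val x (P.gr k x) = 0 := by linarith
  have h4 : 2 * (2 * P.al) ≠ 0 := by
    intro h0
    apply hal
    linarith
  exact (mul_eq_zero.1 h3).resolve_left h4

/-- the graph for `al = 0` -/
theorem kpr1_root_zero (P : Kpr1Q n) (k : KsKind) (x : Fin n → ℝ) (hal : P.al = 0) (hb : eval x P.be ≠ 0) :
    P.dw x (P.gr k x) = eval x P.be ∧ P.val x (P.gr k x) = 0 ∧ eval x P.disc = eval x P.be ^ 2 := by
  have hg : P.gr k x = -eval x P.ga / eval x P.be := by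
    unfold Kpr1Q.gr
    rw [if_pos hal]
  refine ⟨?_, ?_, ?_⟩
  · unfold Kpr1Q.dw
    rw [hal]
    ring
  · rw [hg]
    unfold Kpr1Q.val
    rw [hal]
    field_simp
    ring
  · unfold Kpr1Q.disc
    simp only [map_sub, map_mul, map_pow, eval_C]
    rw [hal]
    ring

/-! ## A2 : the pointwise facts at an incidence -/

/-- **L-252-KPR1-A2a** (80 l.)  `D := disc x = dw² - 2 (2 al) val` (`kpr1_disc_eval`).  `|2 (2al) val| ≤ 2 |2 al| (K a) ≤ 2 K²` (field `ww`), `dw² ≤ K²`.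
If the kind is not `centre` then `|2 al| a (8K³) < 1` (unfold `kpr1K`, `split_ifs`), so `|2 (2al) val| ≤ 2 K |2 al| a ≤ 2K / (8K³) = 1/(4K²)` and `dw² ≥ 1/K²`.
If moreover `al = 0` then `dw x w = be x`, and the kind is `plus` iff `0 < dw` ; `dw ≠ 0` by `dw_lo`. -/
theorem kpr1_pt_disc {P Ps : Kpr1Q n} {K a w : ℝ} {x : Fin n → ℝ} {σ : Bool} (h : Kpr1Pt P Ps K a x w) (hK : 1 ≤ K) (ha0 : 0 < a)
    (hσ : σ = true ↔ 0 < P.dw x w) :
    |eval x P.disc| ≤ 3 * K ^ 2 ∧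
      (kpr1K P.al a (8 * K ^ 3) σ ≠ KsKind.centre → 1 / (2 * K ^ 2) ≤ eval x P.disc ∧ (P.al = 0 → 0 < (kpr1K P.al a (8 * K ^ 3) σ).sgn * eval x P.be)) ∧
      (kpr1K P.al a (8 * K ^ 3) σ = KsKind.centre → P.al ≠ 0) := by
  have hK0 : 0 < K := by linarith
  have hD := kpr1_disc_eval P x w
  obtain ⟨d, hd⟩ : ∃ d, d = P.dw x w := ⟨_, rfl⟩
  obtain ⟨T, hT⟩ : ∃ T, T = P.val x w := ⟨_, rfl⟩
  obtain ⟨A, hA⟩ : ∃ A, A = 2 * P.al := ⟨_, rfl⟩
  have h1 : |T| ≤ K * a := hT ▸ h.val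
  have h2 : |d| ≤ K := hd ▸ h.dw_hi
  have h3 : 1 ≤ K * |d| := hd ▸ h.dw_lo
  have h4 : |A| * a ≤ K := hA ▸ h.ww
  rw [← hd, ← hT, ← hA] at hD
  have hd2 : d ^ 2 ≤ K ^ 2 := by
    rw [← sq_abs d]
    exact pow_le_pow_left₀ (abs_nonneg _) h2 2
  have hAT : |2 * A * T| ≤ 2 * K * (|A| * a) := by
    rw [abs_mul, abs_mul, abs_of_pos (by norm_num : (0 : ℝ) < 2)]
    have := mul_le_mul_of_nonneg_left h1 (abs_nonneg A)
    nlinarith
  refine ⟨?_, ?_, ?_⟩
  · rw [hD]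
    refine (abs_sub _ _).trans ?_
    rw [abs_of_nonneg (sq_nonneg d)]
    nlinarith
  · intro hk
    have hnot : ¬ (1 ≤ |2 * P.al| * a * (8 * K ^ 3)) := by
      intro hc
      apply hk
      unfold kpr1K
      rw [if_pos hc]
    rw [← hA] at hnot
    have hlt : |A| * a * (8 * K ^ 3) < 1 := not_le.1 hnot
    have hK2 : 0 < K ^ 2 := by positivity
    constructor
    · rw [hD, div_le_iff₀ (by positivity)]
      have e1 : 1 ≤ K ^ 2 * d ^ 2 := by
        rw [← sq_abs d, ← mul_pow]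
        exact one_le_pow₀ h3
      have e2 : 2 * K * (|A| * a) * (4 * K ^ 2) < 1 := by nlinarith
      have e3 : |2 * A * T| * (4 * K ^ 2) < 1 := lt_of_le_of_lt (mul_le_mul_of_nonneg_right hAT (by positivity)) e2
      have e4 : 2 * A * T ≤ |2 * A * T| := le_abs_self _
      nlinarith
    · intro hal
      have hbe : eval x P.be = d := by
        rw [hd]
        unfold Kpr1Q.dw
        rw [hal]
        ring
      have hd0 : d ≠ 0 := by
        intro h0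
        rw [h0, abs_zero, mul_zero] at h3
        linarith
      rw [hbe]
      unfold kpr1K
      rw [← hA, if_neg hnot]
      cases σ with
      | true =>
        have : 0 < d := hd ▸ hσ.1 rfl
        simpa [KsKind.sgn] using this
      | false =>
        have hn : ¬ 0 < d := fun hp => by
          have := hσ.2 (hd ▸ hp)
          exact absurd this (by simp)
        have : d < 0 := lt_of_le_of_ne (not_lt.1 hn) hd0
        simpa [KsKind.sgn] using this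
  · intro hk hal
    unfold kpr1K at hk
    rw [hal] at hk
    simp only [mul_zero, abs_zero, zero_mul] at hk
    rw [if_neg (by norm_num)] at hk
    cases σ <;> simp at hk

/-- **L-252-KPR1-A2b** (150 l.)  the graph of the kind of the incidence passes within `8 K⁴ a` of `w`.  With `d := dw x w`, `T := val x w`, `D := disc x`, `k` the kind, `s = sgn k`:
* `k = centre` : `al ≠ 0`, `w - G = d / (2 al)`, `1 / |2 al| ≤ 8 K³ a`.
* `k ≠ centre`, `al ≠ 0` : `s d = |d| > 0`, `D > 0` (`kpr1_pt_disc`), `w - G = (d - s √D) / (2 al)` and `(d - s√D) (d + s√D) = d² - D = 2 (2 al) T`, `|d + s√D| = |d| + √D ≥ 1/K` : `|w - G| = 2 |T| / (|d| + √D) ≤ 2 K² a`.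
* `al = 0` : `w - G = T / be x`, `be x = d`. -/
theorem kpr1_pt_dist {P Ps : Kpr1Q n} {K a w : ℝ} {x : Fin n → ℝ} {σ : Bool} (h : Kpr1Pt P Ps K a x w) (hK : 1 ≤ K) (ha0 : 0 < a)
    (hσ : σ = true ↔ 0 < P.dw x w) : |w - P.gr (kpr1K P.al a (8 * K ^ 3) σ) x| ≤ 8 * K ^ 4 * a := by
  have hK0 : 0 < K := by linarith
  obtain ⟨d, hd⟩ : ∃ d : ℝ, d = P.dw x w := ⟨_, rfl⟩
  obtain ⟨T, hT⟩ : ∃ T : ℝ, T = P.val x w := ⟨_, rfl⟩
  have hdE : d = 2 * P.al * w + eval x P.be := hd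
  have hTE : T = P.al * w ^ 2 + eval x P.be * w + eval x P.ga := hT
  have hTa : |T| ≤ K * a := hT ▸ h.val
  have hdhi : |d| ≤ K := hd ▸ h.dw_hi
  have hdlo : 1 ≤ K * |d| := hd ▸ h.dw_lo
  have hdpos : 0 < |d| := by
    by_contra hn
    have : |d| = 0 := le_antisymm (not_lt.1 hn) (abs_nonneg _)
    rw [this, mul_zero] at hdlo
    linarith
  have hd0 : d ≠ 0 := abs_pos.1 hdpos
  have hinv : 1 / |d| ≤ K := by
    rw [div_le_iff₀ hdpos]
    exact hdlo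
  have pK2 : K ^ 2 ≤ K ^ 4 := pow_le_pow_right₀ hK (by norm_num)
  have hsmall : 2 * K ^ 2 * a ≤ 8 * K ^ 4 * a := by nlinarith
  have hdisc := kpr1_pt_disc h hK ha0 hσ
  by_cases hal : P.al = 0
  · -- linear case
    have hbe : eval x P.be = d := by rw [hdE, hal]; ring
    have e : w - P.gr (kpr1K P.al a (8 * K ^ 3) σ) x = T / d := by
      unfold Kpr1Q.gr
      rw [if_pos hal, hbe, hTE, hal, hbe]
      field_simp
      ring
    rw [e, abs_div, div_eq_mul_one_div]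
    calc |T| * (1 / |d|) ≤ (K * a) * K := mul_le_mul hTa hinv (by positivity) (by positivity)
      _ ≤ 8 * K ^ 4 * a := by nlinarith
  · have h2al : 2 * P.al ≠ 0 := mul_ne_zero two_ne_zero hal
    have h2pos : 0 < |2 * P.al| := abs_pos.2 h2al
    by_cases hc : 1 ≤ |2 * P.al| * a * (8 * K ^ 3)
    · have hk : kpr1K P.al a (8 * K ^ 3) σ = KsKind.centre := by
        unfold kpr1K
        rw [if_pos hc]
      have e : w - P.gr (kpr1K P.al a (8 * K ^ 3) σ) x = d / (2 * P.al) := by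
        unfold Kpr1Q.gr
        rw [if_neg hal, hk, hdE]
        simp only [KsKind.sgn]
        field_simp
        ring
      rw [e, abs_div, div_le_iff₀ h2pos]
      calc |d| ≤ K * 1 := by rw [mul_one]; exact hdhi
        _ ≤ K * (|2 * P.al| * a * (8 * K ^ 3)) := by gcongr
        _ = 8 * K ^ 4 * a * |2 * P.al| := by ring
    · have hk : kpr1K P.al a (8 * K ^ 3) σ ≠ KsKind.centre := by
        unfold kpr1K
        rw [if_neg hc]
        split_ifs <;> simp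
      obtain ⟨s, hs⟩ : ∃ s : ℝ, s = (kpr1K P.al a (8 * K ^ 3) σ).sgn := ⟨_, rfl⟩
      have hsd : s * d = |d| ∧ s ^ 2 = 1 := by
        rw [hs]
        unfold kpr1K
        rw [if_neg hc]
        by_cases hσt : σ = true
        · have : 0 < d := hd ▸ hσ.1 hσt
          rw [if_pos hσt]
          simp only [KsKind.sgn]
          rw [abs_of_pos this]
          constructor <;> ring
        · have : ¬ 0 < d := fun hp => hσt (hσ.2 (hd ▸ hp))
          rw [if_neg hσt]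
          simp only [KsKind.sgn]
          rw [abs_of_nonpos (not_lt.1 this)]
          constructor <;> ring
      have hD := (hdisc.2.1 hk).1
      obtain ⟨D, hDdef⟩ : ∃ D : ℝ, D = eval x P.disc := ⟨_, rfl⟩
      rw [← hDdef] at hD
      have hDpos : 0 < D := lt_of_lt_of_le (by positivity) hD
      have hDE : D = d ^ 2 - 2 * (2 * P.al) * T := by
        rw [hDdef, hd, hT]
        exact kpr1_disc_eval P x w
      obtain ⟨r, hr⟩ : ∃ r : ℝ, r = √D := ⟨_, rfl⟩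
      have hr0 : 0 ≤ r := hr ▸ Real.sqrt_nonneg D
      have hr2 : r ^ 2 = D := by rw [hr, Real.sq_sqrt hDpos.le]
      have e : w - P.gr (kpr1K P.al a (8 * K ^ 3) σ) x = (d - s * r) / (2 * P.al) := by
        unfold Kpr1Q.gr
        rw [if_neg hal, ← hs, ← hDdef, ← hr, hdE]
        field_simp
        ring
      -- `d + s r = s (|d| + r)`
      have hsum : d + s * r = s * (|d| + r) := by
        rw [← hsd.1]
        calc d + s * r = s ^ 2 * d + s * r := by rw [hsd.2, one_mul]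
          _ = s * (s * d + r) := by ring
      have hs1 : |s| = 1 := by
        have : |s| ^ 2 = 1 := by rw [sq_abs]; exact hsd.2
        nlinarith [abs_nonneg s]
      have hsumabs : |d + s * r| = |d| + r := by
        rw [hsum, abs_mul, hs1, one_mul, abs_of_nonneg (by positivity)]
      have hsumpos : 0 < |d + s * r| := by rw [hsumabs]; positivity
      have hsum0 : d + s * r ≠ 0 := abs_pos.1 hsumpos
      have hprod : (d - s * r) * (d + s * r) = 2 * (2 * P.al) * T := by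
        have : (d - s * r) * (d + s * r) = d ^ 2 - s ^ 2 * r ^ 2 := by ring
        rw [this, hsd.2, hr2, hDE]
        ring
      have e2 : (d - s * r) / (2 * P.al) = 2 * T / (d + s * r) := by
        rw [div_eq_div_iff h2al hsum0, hprod]
        ring
      rw [e, e2, abs_div, abs_mul, abs_two, div_le_iff₀ hsumpos, hsumabs]
      have h3 : 1 ≤ K * (|d| + r) := by
        have : 0 ≤ K * r := by positivity
        rw [mul_add]
        linarith
      calc 2 * |T| ≤ 2 * (K * a) * 1 := by linarith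
        _ ≤ 2 * (K * a) * (K * (|d| + r)) := by gcongr
        _ = 2 * K ^ 2 * a * (|d| + r) := by ring
        _ ≤ 8 * K ^ 4 * a * (|d| + r) := by gcongr

/-- **L-252-KPR1-A2c** (50 l.)  Taylor: `Ps.val x g = Ps.val x w + Ps.dw x w (g - w) + Ps.al (g - w)²` (`ring`), `|g - w| ≤ 8K⁴`: `K + 8K⁵ + 32 K⁹ ≤ 41 K⁹`. -/
theorem kpr1_pt_nat {P Ps : Kpr1Q n} {K a w g : ℝ} {x : Fin n → ℝ} (h : Kpr1Pt P Ps K a x w) (hK : 1 ≤ K) (ha0 : 0 < a) (ha1 : a ≤ 1)
    (hg : |w - g| ≤ 8 * K ^ 4 * a) : |Ps.val x g| ≤ 41 * K ^ 9 := by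
  have e : Ps.val x g = Ps.val x w + Ps.dw x w * (g - w) + Ps.al * (g - w) ^ 2 := by
    unfold Kpr1Q.val Kpr1Q.dw
    ring
  have hK0 : 0 < K := by linarith
  have hgw : |g - w| ≤ 8 * K ^ 4 := by
    rw [abs_sub_comm]
    refine hg.trans ?_
    have : 0 < 8 * K ^ 4 := by positivity
    nlinarith
  have hal : |Ps.al| ≤ K / 2 := by
    have := h.nww
    rw [abs_mul, abs_two] at this
    linarith
  have h1 : |Ps.dw x w * (g - w)| ≤ K * (8 * K ^ 4) := by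
    rw [abs_mul]
    exact mul_le_mul h.ndw hgw (abs_nonneg _) hK0.le
  have h2 : |Ps.al * (g - w) ^ 2| ≤ K / 2 * (8 * K ^ 4) ^ 2 := by
    rw [abs_mul, abs_pow]
    exact mul_le_mul hal (pow_le_pow_left₀ (abs_nonneg _) hgw 2) (by positivity) (by positivity)
  have p1 : K ≤ K ^ 9 := le_self_pow₀ hK (by norm_num)
  have p5 : K ^ 5 ≤ K ^ 9 := pow_le_pow_right₀ hK (by norm_num)
  rw [e]
  calc |Ps.val x w + Ps.dw x w * (g - w) + Ps.al * (g - w) ^ 2|
      ≤ |Ps.val x w| + |Ps.dw x w * (g - w)| + |Ps.al * (g - w) ^ 2| := abs_add_three _ _ _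
    _ ≤ K + K * (8 * K ^ 4) + K / 2 * (8 * K ^ 4) ^ 2 := add_le_add (add_le_add h.nval h1) h2
    _ = K + 8 * K ^ 5 + 32 * K ^ 9 := by ring
    _ ≤ 41 * K ^ 9 := by linarith

/-! ## A3 : Remez for the discriminant -/

/-- the sup-norm ball is a box -/
theorem kpr1a_ball_box (n : ℕ) {K : ℝ} (hK : 0 ≤ K) :
    Metric.closedBall (0 : Fin n → ℝ) K = Set.Icc (fun _ => -K) (fun _ => K) := by
  rw [closedBall_pi _ hK, ← Set.pi_univ_Icc]
  congr 1
  funext i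
  rw [Pi.zero_apply, Real.closedBall_eq_Icc, zero_sub, zero_add]

/-- the normalised norm of a quadratic which is bounded on a large subset of the box -/
theorem kpr1a_nm (n : ℕ) (Δ : MvPolynomial (Fin n) ℝ) (K K₁ : ℝ) (E : Set (Fin n → ℝ)) (hdeg : Δ.totalDegree ≤ 2) (hK : 1 ≤ K) (hK₁ : 1 ≤ K₁)
    (hE : E ⊆ Metric.closedBall 0 K) (hvol : ENNReal.ofReal (1 / (K * K₁)) ≤ volume E) (hM : ∀ x ∈ E, |eval x Δ| ≤ 3 * K ^ 2) :
    rmzNm (rmzAffm (fun _ => -K) (fun _ => K) Δ)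
      ≤ (3 * ((9 * (24 * 2 ^ n) ^ 2) ^ n : ℕ) * 2 ^ (2 * n * n) : ℝ) * (K * K₁) ^ (2 * n * (n + 1) + 2) := by
  have hK0 : 0 < K := by linarith
  have hL : 1 ≤ K * K₁ := by nlinarith
  have hL0 : 0 < K * K₁ := by linarith
  have hKL : K ≤ K * K₁ := by nlinarith
  have hab : ∀ i : Fin n, (fun _ : Fin n => -K) i < (fun _ : Fin n => K) i := fun _ => by simp only; linarith
  obtain ⟨θ, hθ⟩ : ∃ θ : ℝ, θ = 1 / (K * K₁ * (2 * K) ^ n) := ⟨_, rfl⟩
  have hθ0 : 0 < θ := by rw [hθ]; positivity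
  have hvolbox : volume (Set.Icc (fun _ : Fin n => -K) (fun _ : Fin n => K)) = ENNReal.ofReal ((2 * K) ^ n) := by
    rw [Real.volume_Icc_pi]
    simp only [Finset.prod_const, Finset.card_univ, Fintype.card_fin]
    rw [← ENNReal.ofReal_pow (by linarith)]
    congr 2
    ring
  have h1 := rmz_box n 2 Δ (rmz_degreeOf_le Δ 2 hdeg) (fun _ => -K) (fun _ => K) hab θ (3 * K ^ 2) hθ0 E
    (by rw [← kpr1a_ball_box n hK0.le]; exact hE)
    (by
      rw [hvolbox, ← ENNReal.ofReal_mul hθ0.le]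
      refine le_trans (le_of_eq ?_) hvol
      congr 1
      rw [hθ]
      field_simp) hM
  have h2 := rmz_Cm_le n 2 θ hθ0
  have h3 : θ⁻¹ ≤ 2 ^ n * (K * K₁) ^ (n + 1) := by
    rw [hθ, one_div, inv_inv, mul_pow, pow_succ]
    have : K ^ n ≤ (K * K₁) ^ n := pow_le_pow_left₀ hK0.le hKL n
    calc K * K₁ * (2 ^ n * K ^ n) ≤ K * K₁ * (2 ^ n * (K * K₁) ^ n) := by gcongr
      _ = 2 ^ n * ((K * K₁) ^ n * (K * K₁)) := by ring
  have h4 : (θ⁻¹) ^ (n * 2) ≤ 2 ^ (2 * n * n) * (K * K₁) ^ (2 * n * (n + 1)) := by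
    calc (θ⁻¹) ^ (n * 2) ≤ (2 ^ n * (K * K₁) ^ (n + 1)) ^ (n * 2) := pow_le_pow_left₀ (inv_pos.2 hθ0).le h3 _
      _ = 2 ^ (2 * n * n) * (K * K₁) ^ (2 * n * (n + 1)) := by
          rw [mul_pow, ← pow_mul, ← pow_mul]
          congr 2 <;> ring
  have h5 : K ^ 2 ≤ (K * K₁) ^ 2 := pow_le_pow_left₀ hK0.le hKL 2
  have hA : (((2 : ℕ) : ℝ) + 1) ^ 2 * (8 * (((2 : ℕ) : ℝ) + 1) * 2 ^ n) ^ 2 = (9 * (24 * 2 ^ n) ^ 2 : ℝ) := by
    push_cast
    ring
  rw [hA] at h2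
  have hA0 : (0 : ℝ) ≤ (9 * (24 * 2 ^ n) ^ 2 : ℝ) ^ n := by positivity
  calc rmzNm (rmzAffm (fun _ => -K) (fun _ => K) Δ) ≤ rmzCm n 2 θ * (3 * K ^ 2) := h1
    _ ≤ ((9 * (24 * 2 ^ n) ^ 2 : ℝ) ^ n * (θ⁻¹) ^ (n * 2)) * (3 * K ^ 2) := by gcongr
    _ ≤ ((9 * (24 * 2 ^ n) ^ 2 : ℝ) ^ n * (2 ^ (2 * n * n) * (K * K₁) ^ (2 * n * (n + 1)))) * (3 * (K * K₁) ^ 2) := by gcongr
    _ = (3 * ((9 * (24 * 2 ^ n) ^ 2) ^ n : ℕ) * 2 ^ (2 * n * n) : ℝ) * (K * K₁) ^ (2 * n * (n + 1) + 2) := by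
        push_cast
        ring

/-- values of a polynomial of degree `≤ 2` in each variable on the ball of radius `3K` -/
theorem kpr1a_eval (n : ℕ) (Q : MvPolynomial (Fin n) ℝ) (hQ : ∀ i, Q.degreeOf i ≤ 2) {K : ℝ} (hK : 0 < K) {x : Fin n → ℝ}
    (hx : x ∈ Metric.closedBall (0 : Fin n → ℝ) (3 * K)) :
    |eval x Q| ≤ rmzNm (rmzAffm (fun _ => -K) (fun _ => K) Q) * 4 ^ n := by
  have h := rmz_box_eval n 2 Q hQ (fun _ => -K) (fun _ => K) (fun _ => by show -K < K; linarith) 2 (by norm_num) x (fun i => by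
    rw [mem_closedBall_zero_iff] at hx
    have h1 := (norm_le_pi_norm x i).trans hx
    rw [Real.norm_eq_abs] at h1
    have h2 := abs_le.1 h1
    rw [abs_le]
    constructor <;> linarith [h2.1, h2.2])
  have e : (2 : ℝ) ^ (n * 2) = 4 ^ n := by
    rw [mul_comm, pow_mul]
    norm_num
  rwa [e] at h

/-- **L-252-KPR1-A3** (200 l.)  Box `a = -K`, `b = K` (constant vectors); `closedBall 0 K = Icc a b` (`closedBall_pi`, `Real.closedBall_eq_Icc`), `volume (Icc a b) = (2K)^n` (`Real.volume_Icc_pi`);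
`θ := 1 / (K K₁ (2K)^n)`.  `rmz_box n 2 Δ` (degrees: `rmz_degreeOf_le`) : `Nm := rmzNm (rmzAffm a b Δ) ≤ rmzCm n 2 θ * (3K²)`, `rmz_Cm_le`.   Values on `‖x‖ ≤ 3K` : `rmz_box_eval` with `lam = 2`.
Gradient: `rmz_box_pderiv` (`Nm (∂_i Δ) ≤ 2 / (2K) Nm`), `rmz_degreeOf_pderiv`, `rmz_box_eval`.   Lipschitz: along the segment `t ↦ y + t (x - y)` (inside the convex ball) the derivative is `∑ (x - y)_i ∂_i Δ` (`k6b_dP_hasDerivAt`),
`≤ n ‖x - y‖ max |∂_i Δ|`; mean value theorem (`Convex.norm_image_sub_le_of_norm_hasDerivWithin_le` on `[0,1]`).  All constants are `≤ c (K K₁)^c`. -/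
theorem kpr1_remez (n : ℕ) : ∃ c : ℕ, ∀ (Δ : MvPolynomial (Fin n) ℝ) (K K₁ : ℝ) (E : Set (Fin n → ℝ)), Δ.totalDegree ≤ 2 → 1 ≤ K → 1 ≤ K₁ →
    E ⊆ Metric.closedBall 0 K → ENNReal.ofReal (1 / (K * K₁)) ≤ volume E → (∀ x ∈ E, |eval x Δ| ≤ 3 * K ^ 2) →
    (∀ x ∈ Metric.closedBall (0 : Fin n → ℝ) (3 * K), |eval x Δ| ≤ c * (K * K₁) ^ c) ∧
      ∀ x ∈ Metric.closedBall (0 : Fin n → ℝ) (3 * K), ∀ y ∈ Metric.closedBall (0 : Fin n → ℝ) (3 * K), |eval x Δ - eval y Δ| ≤ c * (K * K₁) ^ c * ‖x - y‖ := by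
  obtain ⟨B, hB⟩ : ∃ B : ℕ, B = 3 * (9 * (24 * 2 ^ n) ^ 2) ^ n * 2 ^ (2 * n * n) := ⟨_, rfl⟩
  refine ⟨(n + 1) * 4 ^ n * B + (2 * n * (n + 1) + 2), ?_⟩
  intro Δ K K₁ E hdeg hK hK₁ hE hvol hM
  have hK0 : 0 < K := by linarith
  have hL : 1 ≤ K * K₁ := by nlinarith
  obtain ⟨Nm, hNm⟩ : ∃ Nm : ℝ, Nm = rmzNm (rmzAffm (fun _ => -K) (fun _ => K) Δ) := ⟨_, rfl⟩
  have hNm0 : 0 ≤ Nm := hNm ▸ rmz_Nm_nonneg _
  have hNmle : Nm ≤ (B : ℝ) * (K * K₁) ^ (2 * n * (n + 1) + 2) := by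
    rw [hNm, hB]
    have := kpr1a_nm n Δ K K₁ E hdeg hK hK₁ hE hvol hM
    push_cast at this ⊢
    exact this
  obtain ⟨c, hc⟩ : ∃ c : ℕ, c = (n + 1) * 4 ^ n * B + (2 * n * (n + 1) + 2) := ⟨_, rfl⟩
  rw [← hc]
  have hdo := rmz_degreeOf_le Δ 2 hdeg
  -- the master bound
  have hmaster : ((n : ℝ) + 1) * (Nm * 4 ^ n) ≤ c * (K * K₁) ^ c := by
    have e1 : (K * K₁) ^ (2 * n * (n + 1) + 2) ≤ (K * K₁) ^ c := pow_le_pow_right₀ hL (by rw [hc]; omega)
    have e2 : (((n + 1) * 4 ^ n * B : ℕ) : ℝ) ≤ c := by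
      exact_mod_cast (by rw [hc]; omega : (n + 1) * 4 ^ n * B ≤ c)
    calc ((n : ℝ) + 1) * (Nm * 4 ^ n) ≤ ((n : ℝ) + 1) * (((B : ℝ) * (K * K₁) ^ (2 * n * (n + 1) + 2)) * 4 ^ n) := by gcongr
      _ = (((n + 1) * 4 ^ n * B : ℕ) : ℝ) * (K * K₁) ^ (2 * n * (n + 1) + 2) := by push_cast; ring
      _ ≤ c * (K * K₁) ^ c := by gcongr
  have hone : Nm * 4 ^ n ≤ ((n : ℝ) + 1) * (Nm * 4 ^ n) := by
    have : 0 ≤ Nm * 4 ^ n := by positivity
    have hn : (0 : ℝ) ≤ n := Nat.cast_nonneg n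
    nlinarith
  have hval : ∀ x ∈ Metric.closedBall (0 : Fin n → ℝ) (3 * K), |eval x Δ| ≤ Nm * 4 ^ n := by
    intro x hx
    rw [hNm]
    exact kpr1a_eval n Δ hdo hK0 hx
  have hgrad : ∀ i : Fin n, ∀ x ∈ Metric.closedBall (0 : Fin n → ℝ) (3 * K), |eval x (pderiv i Δ)| ≤ Nm * 4 ^ n := by
    intro i x hx
    refine (kpr1a_eval n (pderiv i Δ) (fun j => (rmz_degreeOf_pderiv n Δ i j).trans (hdo j)) hK0 hx).trans ?_
    have h1 := rmz_box_pderiv n 2 Δ (fun _ => -K) (fun _ => K) (fun _ => by show -K < K; linarith) i (hdo i)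
    rw [← hNm] at h1
    have h2 : ((2 : ℕ) : ℝ) / (K - -K) * Nm ≤ Nm := by
      have : ((2 : ℕ) : ℝ) / (K - -K) ≤ 1 := by
        rw [div_le_one (by linarith)]
        push_cast
        linarith
      nlinarith
    gcongr
    exact h1.trans h2
  refine ⟨fun x hx => ((hval x hx).trans hone).trans hmaster, ?_⟩
  intro x hx y hy
  have hconv : ∀ t ∈ Set.Icc (0 : ℝ) 1, y + t • (x - y) ∈ Metric.closedBall (0 : Fin n → ℝ) (3 * K) := by
    intro t ht
    have := (convex_closedBall (0 : Fin n → ℝ) (3 * K)) hy hx (sub_nonneg.2 ht.2) ht.1 (by ring)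
    have e : y + t • (x - y) = (1 - t) • y + t • x := by
      rw [smul_sub, sub_smul, one_smul]
      abel
    rw [e]
    exact this
  have hder : ∀ t ∈ Set.Icc (0 : ℝ) 1, ‖eval (y + t • (x - y)) (k6b_dP (x - y) Δ)‖ ≤ (n : ℝ) * (Nm * 4 ^ n) * ‖x - y‖ := by
    intro t ht
    unfold k6b_dP
    rw [map_sum, Real.norm_eq_abs]
    refine (Finset.abs_sum_le_sum_abs _ _).trans ?_
    calc ∑ j, |eval (y + t • (x - y)) (C ((x - y) j) * pderiv j Δ)| ≤ ∑ _j : Fin n, ‖x - y‖ * (Nm * 4 ^ n) := by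
          refine Finset.sum_le_sum fun j _ => ?_
          rw [map_mul, eval_C, abs_mul]
          exact mul_le_mul (norm_le_pi_norm (x - y) j) (hgrad j _ (hconv t ht)) (abs_nonneg _) (norm_nonneg _)
      _ = (n : ℝ) * (Nm * 4 ^ n) * ‖x - y‖ := by
          rw [Finset.sum_const, Finset.card_univ, Fintype.card_fin, nsmul_eq_mul]
          ring
  have hmv := Convex.norm_image_sub_le_of_norm_hasDerivWithin_le (f := fun t : ℝ => eval (y + t • (x - y)) Δ)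
    (s := Set.Icc (0 : ℝ) 1) (fun t _ => (k6b_dP_hasDerivAt Δ y (x - y) t).hasDerivWithinAt) hder (convex_Icc 0 1)
    (Set.left_mem_Icc.2 zero_le_one) (Set.right_mem_Icc.2 zero_le_one)
  simp only [one_smul, zero_smul, add_zero, sub_zero, norm_one, mul_one, Real.norm_eq_abs, add_sub_cancel] at hmv
  refine hmv.trans ?_
  have hn1 : (n : ℝ) * (Nm * 4 ^ n) ≤ ((n : ℝ) + 1) * (Nm * 4 ^ n) := by
    have : 0 ≤ Nm * 4 ^ n := by positivity
    nlinarith
  exact mul_le_mul_of_nonneg_right (hn1.trans hmaster) (norm_nonneg _)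

/-- **L-252-KPR1-A4** (100 l.)  `c` from `kpr1_remez n`, `c₀ := 12 c + 4`.  `ρ ≤ 1/4`; `x ∈ closedBall uc (2ρ)` has `‖x - x₀‖ ≤ 3ρ` and `‖x‖ ≤ K + 3ρ ≤ 3K`;
`|Δ x - Δ x₀| ≤ c (K K₁)^c 3ρ ≤ 1/(4K²)` because `12 c K² (K K₁)^c ≤ c₀ (K K₁)^(c₀)`. -/
theorem kpr1_disc_ball (n : ℕ) : ∃ c₀ : ℕ, 4 ≤ c₀ ∧ ∀ (Δ : MvPolynomial (Fin n) ℝ) (K K₁ ρ : ℝ) (E : Set (Fin n → ℝ)) (uc x₀ : Fin n → ℝ), Δ.totalDegree ≤ 2 → 1 ≤ K → 1 ≤ K₁ →
    E ⊆ Metric.closedBall 0 K → ENNReal.ofReal (1 / (K * K₁)) ≤ volume E → (∀ x ∈ E, |eval x Δ| ≤ 3 * K ^ 2) →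
    ρ = 1 / (c₀ * (K * K₁) ^ c₀) → ‖x₀‖ ≤ K → ‖x₀ - uc‖ ≤ ρ → 1 / (2 * K ^ 2) ≤ eval x₀ Δ →
    ∀ x ∈ Metric.closedBall uc (2 * ρ), 1 / (4 * K ^ 2) ≤ eval x Δ ∧ eval x Δ ≤ c₀ * (K * K₁) ^ c₀ := by
  obtain ⟨c, hc⟩ := kpr1_remez n
  refine ⟨12 * c + 4, by omega, ?_⟩
  intro Δ K K₁ ρ E uc x₀ hdeg hK hK₁ hE hvol hM hρ hx₀ hx₀u hlo x hx
  obtain ⟨hsup, hlip⟩ := hc Δ K K₁ E hdeg hK hK₁ hE hvol hM
  have hK0 : 0 < K := by linarith
  have hL : 1 ≤ K * K₁ := by nlinarith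
  have hL0 : 0 < K * K₁ := by linarith
  have hKL : K ≤ K * K₁ := by nlinarith
  obtain ⟨c₀, hc₀⟩ : ∃ c₀ : ℕ, c₀ = 12 * c + 4 := ⟨_, rfl⟩
  rw [← hc₀] at hρ ⊢
  have hc₀4 : (4 : ℝ) ≤ c₀ := by exact_mod_cast (by omega : 4 ≤ c₀)
  have hpow1 : 1 ≤ (K * K₁) ^ c₀ := one_le_pow₀ hL
  have hden : 0 < (c₀ : ℝ) * (K * K₁) ^ c₀ := by positivity
  have hρ0 : 0 < ρ := by rw [hρ]; positivity
  have hρ4 : ρ ≤ 1 / 4 := by
    rw [hρ]
    refine one_div_le_one_div_of_le (by norm_num) ?_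
    nlinarith
  have hxx₀ : ‖x - x₀‖ ≤ 3 * ρ := by
    rw [Metric.mem_closedBall, dist_eq_norm] at hx
    have e : x - x₀ = (x - uc) - (x₀ - uc) := by abel
    rw [e]
    exact (norm_sub_le _ _).trans (by linarith)
  have hx3 : x ∈ Metric.closedBall (0 : Fin n → ℝ) (3 * K) := by
    rw [mem_closedBall_zero_iff]
    have e : x = (x - x₀) + x₀ := by abel
    rw [e]
    exact (norm_add_le _ _).trans (by linarith)
  have hx₀3 : x₀ ∈ Metric.closedBall (0 : Fin n → ℝ) (3 * K) := by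
    rw [mem_closedBall_zero_iff]
    linarith
  have h1 := hlip x hx3 x₀ hx₀3
  have hcL0 : 0 ≤ (c : ℝ) * (K * K₁) ^ c := by positivity
  have hkey : (c : ℝ) * (K * K₁) ^ c * (3 * ρ) ≤ 1 / (4 * K ^ 2) := by
    rw [hρ, le_div_iff₀ (by positivity)]
    have e1 : K ^ 2 * (K * K₁) ^ c ≤ (K * K₁) ^ c₀ := by
      calc K ^ 2 * (K * K₁) ^ c ≤ (K * K₁) ^ 2 * (K * K₁) ^ c := by gcongr
        _ = (K * K₁) ^ (2 + c) := by rw [pow_add]
        _ ≤ (K * K₁) ^ c₀ := pow_le_pow_right₀ hL (by omega)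
    have e2 : (12 : ℝ) * c ≤ c₀ := by
      have : (12 * c : ℕ) ≤ c₀ := by omega
      exact_mod_cast this
    have e3 : (c : ℝ) * (K * K₁) ^ c * (3 * (1 / (c₀ * (K * K₁) ^ c₀))) * (4 * K ^ 2)
        = (12 * c * (K ^ 2 * (K * K₁) ^ c)) / (c₀ * (K * K₁) ^ c₀) := by
      field_simp
      ring
    rw [e3, div_le_one hden]
    exact mul_le_mul e2 e1 (by positivity) (by positivity)
  have h2 : |eval x Δ - eval x₀ Δ| ≤ 1 / (4 * K ^ 2) :=
    h1.trans ((mul_le_mul_of_nonneg_left hxx₀ hcL0).trans hkey)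
  have h3 := abs_le.1 h2
  constructor
  · have e : 1 / (2 * K ^ 2) = 1 / (4 * K ^ 2) + 1 / (4 * K ^ 2) := by
      field_simp
      norm_num
    linarith [h3.1]
  · refine (le_abs_self _).trans ((hsup x hx3).trans ?_)
    have e1 : (c : ℝ) ≤ c₀ := by exact_mod_cast (by omega : c ≤ c₀)
    have e2 : (K * K₁) ^ c ≤ (K * K₁) ^ c₀ := pow_le_pow_right₀ hL (by omega)
    exact mul_le_mul e1 e2 (by positivity) (by positivity)

/-! ## A5 : the sign of `be` when `al = 0` -/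

/-- **L-252-KPR1-A5** (80 l.)  `disc = be²` (`al = 0`), so `be ≠ 0` on the convex ball; `x ↦ eval x be` is continuous (`MvPolynomial.continuous_eval`); the ball is preconnected (`(convex_closedBall _ _).isPreconnected`):
if `s be x ≤ 0` somewhere, the intermediate value theorem (`IsPreconnected.intermediate_value`) gives a zero.  Then `√(be²) = |be| = s be` (`Real.sqrt_sq_eq_abs`; `|s| = 1`). -/
theorem kpr1_sign (P : Kpr1Q n) (s r : ℝ) (uc x₀ : Fin n → ℝ) (hal : P.al = 0) (hs1 : |s| = 1) (hx₀ : x₀ ∈ Metric.closedBall uc r) (hs : 0 < s * eval x₀ P.be)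
    (hd : ∀ x ∈ Metric.closedBall uc r, 0 < eval x P.disc) : ∀ x ∈ Metric.closedBall uc r, s * eval x P.be = √(eval x P.disc) := by
  intro x hx
  have hdisc : ∀ y : Fin n → ℝ, eval y P.disc = eval y P.be ^ 2 := by
    intro y
    simp [Kpr1Q.disc, hal]
  have hcont : Continuous fun y : Fin n → ℝ => s * eval y P.be :=
    continuous_const.mul (MvPolynomial.continuous_eval P.be)
  have hpos : 0 < s * eval x P.be := by
    by_contra hneg
    have hneg' : s * eval x P.be ≤ 0 := not_lt.1 hneg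
    have hpre : IsPreconnected (Metric.closedBall uc r) := (convex_closedBall uc r).isPreconnected
    have hmem : (0 : ℝ) ∈ Set.Icc (s * eval x P.be) (s * eval x₀ P.be) := ⟨hneg', hs.le⟩
    obtain ⟨z, hz, hz0⟩ := hpre.intermediate_value hx hx₀ hcont.continuousOn hmem
    have hs0 : s ≠ 0 := by
      intro h0
      rw [h0] at hs1
      simp at hs1
    have hbe : eval z P.be = 0 := by
      rcases mul_eq_zero.1 hz0 with h | h
      · exact absurd h hs0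
      · exact h
    have := hd z hz
    rw [hdisc z, hbe] at this
    simp at this
  rw [hdisc x, Real.sqrt_sq_eq_abs]
  have h1 : |s * eval x P.be| = |eval x P.be| := by rw [abs_mul, hs1, one_mul]
  rw [← h1, abs_of_pos hpos]

/-! ## A6 : the sheet of `Ps (x, G (x))` -/

theorem kpr1a_deg_sub {p q : MvPolynomial (Fin n) ℝ} {d : ℕ} (hp : p.totalDegree ≤ d) (hq : q.totalDegree ≤ d) :
    (p - q).totalDegree ≤ d :=
  (MvPolynomial.totalDegree_sub p q).trans (max_le hp hq)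

theorem kpr1a_deg_sq {p : MvPolynomial (Fin n) ℝ} (a : ℕ) {d : ℕ} (hp : p.totalDegree ≤ a) (hd : 2 * a ≤ d) :
    (p ^ 2).totalDegree ≤ d :=
  ((MvPolynomial.totalDegree_pow p 2).trans (Nat.mul_le_mul_left 2 hp)).trans hd

/-- **L-252-KPR1-A6a** (100 l.)  unfold `kpr1Sh`, `kpr1Dl`, `split_ifs`; degree calculus (`ksl18_deg_add`, `ksl18_deg_mul`, `ksl18_deg_C` of `State/KsLoc.lean`, `totalDegree_sub_le`, `totalDegree_pow`, `kpr1_disc_deg`). -/
theorem kpr1_sheet_deg (P Ps : Kpr1Q n) (hP : P.Deg) (hPs : Ps.Deg) (k : KsKind) : (kpr1Sh P Ps k).Deg 5 (kpr1Dl P k) := by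
  have hdl : (kpr1Dl P k).totalDegree ≤ 5 := by
    unfold kpr1Dl
    split_ifs
    · simp
    · exact (kpr1_disc_deg P hP).trans (by norm_num)
  have hb := hP.be
  have hg := hP.ga
  have hsb := hPs.be
  have hsg := hPs.ga
  have hD := kpr1_disc_deg P hP
  unfold kpr1Sh
  split_ifs with hal
  · refine ⟨hdl, hsg.trans (by norm_num), ?_, by norm_num⟩
    show (C k.sgn * P.be * (C Ps.al * P.ga ^ 2 - Ps.be * P.ga * P.be)).totalDegree ≤ 5
    refine ksl18_deg_mul 1 4 (ksl18_deg_mul 0 1 (ksl18_deg_C _) hb le_rfl) ?_ le_rfl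
    refine kpr1a_deg_sub ?_ ?_
    · exact ksl18_deg_mul 0 4 (ksl18_deg_C _) (kpr1a_deg_sq 2 hg le_rfl) le_rfl
    · exact ksl18_deg_mul 3 1 (ksl18_deg_mul 1 2 hsb hg le_rfl) hb le_rfl
  · refine ⟨hdl, ?_, ?_, by norm_num⟩
    · show (C (Ps.al / (4 * P.al ^ 2)) * (C (k.sgn ^ 2) * P.disc + P.be ^ 2) - C (1 / (2 * P.al)) * (Ps.be * P.be) + Ps.ga).totalDegree ≤ 5
      refine ksl18_deg_add (kpr1a_deg_sub ?_ ?_) (hsg.trans (by norm_num))
      · refine ksl18_deg_mul 0 2 (ksl18_deg_C _) (ksl18_deg_add ?_ ?_) (by norm_num)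
        · exact ksl18_deg_mul 0 2 (ksl18_deg_C _) hD le_rfl
        · exact kpr1a_deg_sq 1 hb le_rfl
      · exact ksl18_deg_mul 0 2 (ksl18_deg_C _) (ksl18_deg_mul 1 1 hsb hb le_rfl) (by norm_num)
    · show (C k.sgn * (C (1 / (2 * P.al)) * Ps.be - C (Ps.al / (2 * P.al ^ 2)) * P.be)).totalDegree ≤ 5
      refine ksl18_deg_mul 0 1 (ksl18_deg_C _) (kpr1a_deg_sub ?_ ?_) (by norm_num)
      · exact ksl18_deg_mul 0 1 (ksl18_deg_C _) hsb le_rfl
      · exact ksl18_deg_mul 0 1 (ksl18_deg_C _) hb le_rfl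

/-- **L-252-KPR1-A6b** (120 l.)  unfold `kpr1Sh`, `kpr1Dl`, `k6b_Sheet.val`, `Kpr1Q.val`, `Kpr1Q.gr`.
* `al ≠ 0` : `r := √(disc x)`; `k = centre` : `sgn = 0`, `Dl = 1`, both sides are `Ps.al be²/(4al²) - Ps.be be/(2al) + Ps.ga`;  `k ≠ centre` : `r² = disc x`, `field_simp`, `ring_nf` + substitution of `r²`.
* `al = 0` : `k ≠ centre` by `h1`; `disc x = (be x)²`, `be x ≠ 0`, `√(disc x) = s be x`, `s² = 1`. -/
theorem kpr1_sheet_val (P Ps : Kpr1Q n) (k : KsKind) (x : Fin n → ℝ) (h1 : k = KsKind.centre → P.al ≠ 0) (h2 : k ≠ KsKind.centre → 0 < eval x P.disc)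
    (h3 : P.al = 0 → k.sgn * eval x P.be = √(eval x P.disc)) : Ps.val x (P.gr k x) = (kpr1Sh P Ps k).val (kpr1Dl P k) x := by
  by_cases hal : P.al = 0
  · have hk : k ≠ KsKind.centre := fun h => h1 h hal
    have hdpos := h2 hk
    have hdisc : eval x P.disc = eval x P.be ^ 2 := by simp [Kpr1Q.disc, hal]
    have hbe : eval x P.be ≠ 0 := by
      intro h0
      rw [hdisc, h0] at hdpos
      simp at hdpos
    have hs2 : k.sgn ^ 2 = 1 := by
      cases k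
      · simp [KsKind.sgn]
      · simp [KsKind.sgn]
      · exact absurd rfl hk
    have hsq := h3 hal
    have hDl : kpr1Dl P k = P.disc := by simp [kpr1Dl, hk]
    have hSh : kpr1Sh P Ps k = { A := Ps.ga, B := C k.sgn * P.be * (C Ps.al * P.ga ^ 2 - Ps.be * P.ga * P.be), k := 2 } := by
      simp [kpr1Sh, hal]
    rw [hSh, hDl]
    unfold k6b_Sheet.val Kpr1Q.val Kpr1Q.gr
    rw [if_pos hal, ← hsq, hdisc]
    simp only [map_mul, map_sub, map_pow, eval_C]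
    obtain ⟨b, hb⟩ : ∃ b, b = eval x P.be := ⟨_, rfl⟩
    obtain ⟨s, hs⟩ : ∃ s, s = k.sgn := ⟨_, rfl⟩
    rw [← hb] at hbe ⊢
    rw [← hs] at hs2 ⊢
    have : s * b * (Ps.al * eval x P.ga ^ 2 - eval x Ps.be * eval x P.ga * b) * (s * b / (b ^ 2) ^ 2)
        = s ^ 2 * ((Ps.al * eval x P.ga ^ 2 - eval x Ps.be * eval x P.ga * b) / b ^ 2) := by
      field_simp
    rw [this, hs2]
    field_simp
    ring
  · have hSh : kpr1Sh P Ps k = { A := C (Ps.al / (4 * P.al ^ 2)) * (C (k.sgn ^ 2) * P.disc + P.be ^ 2) - C (1 / (2 * P.al)) * (Ps.be * P.be) + Ps.ga, B := C k.sgn * (C (1 / (2 * P.al)) * Ps.be - C (Ps.al / (2 * P.al ^ 2)) * P.be), k := 0 } := by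
      simp [kpr1Sh, hal]
    rw [hSh]
    unfold k6b_Sheet.val Kpr1Q.val Kpr1Q.gr
    rw [if_neg hal]
    simp only [map_mul, map_sub, map_add, map_pow, eval_C, pow_zero, div_one]
    by_cases hk : k = KsKind.centre
    · subst hk
      simp only [KsKind.sgn]
      field_simp
      ring
    · have hDl : kpr1Dl P k = P.disc := by simp [kpr1Dl, hk]
      rw [hDl]
      have hr2 : √(eval x P.disc) ^ 2 = eval x P.disc := Real.sq_sqrt (h2 hk).le
      obtain ⟨r, hr⟩ : ∃ r, r = √(eval x P.disc) := ⟨_, rfl⟩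
      rw [← hr] at hr2 ⊢
      rw [← hr2]
      field_simp
      ring

/-! ## A7 : calculus of sheets -/

theorem kpr1a_eval_contDiff (p : MvPolynomial (Fin n) ℝ) (N : WithTop ℕ∞) : ContDiff ℝ N fun x : Fin n → ℝ => eval x p := by
  induction p using MvPolynomial.induction_on with
  | C a => simp only [eval_C]; exact contDiff_const
  | add p q hp hq => simp only [map_add]; exact hp.add hq
  | mul_X p i hp => simp only [map_mul, eval_X]; exact hp.mul (contDiff_apply ℝ ℝ i)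

/-- **L-252-KPR1-A7a** (80 l.)  `x ↦ eval x p` is `ContDiff` (induction `MvPolynomial.induction_on`: constants, sums, products with a coordinate `contDiff_apply`); `Real.contDiffAt_sqrt`, `ContDiffAt.div`, `.pow`, `.mul`, `.add`. -/
theorem kpr1_sheet_contDiffAt (Dl : MvPolynomial (Fin n) ℝ) (F : k6b_Sheet n) (x : Fin n → ℝ) (hx : 0 < eval x Dl) (q : ℕ) : ContDiffAt ℝ q (F.val Dl) x := by
  have hD : ContDiffAt ℝ q (fun u : Fin n → ℝ => eval u Dl) x := (kpr1a_eval_contDiff Dl q).contDiffAt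
  have hA : ContDiffAt ℝ q (fun u : Fin n → ℝ => eval u F.A) x := (kpr1a_eval_contDiff F.A q).contDiffAt
  have hB : ContDiffAt ℝ q (fun u : Fin n → ℝ => eval u F.B) x := (kpr1a_eval_contDiff F.B q).contDiffAt
  exact hA.add (hB.mul ((hD.sqrt hx.ne').div (hD.pow F.k) (pow_ne_zero _ hx.ne')))

/-- **L-252-KPR1-A7b** (200 l.)  the iterated derivative of a sheet is the iterated FORMAL derivative.   Induction on `i`, for ALL `x` with `0 < eval x Dl` and all `m`.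
`i = 0` : `iteratedFDeriv_zero_apply`, `List.ofFn_zero`.    `i + 1` : `iteratedFDeriv_succ_apply_left`, `List.ofFn_succ`, `List.foldr_cons`.   Put `G := ((List.ofFn (Fin.tail m)).foldr (dv Dl) F)`.  On the neighbourhood `{0 < eval · Dl}` (open:
`continuous_eval`) the function `g y := iteratedFDeriv ℝ i (F.val Dl) y (Fin.tail m)` equals `G.val Dl y` (induction hypothesis).  `iteratedFDeriv ℝ i (F.val Dl)` is differentiable at `x` (`kpr1_sheet_contDiffAt` with `q = i + 1`,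
`ContDiffAt.differentiableAt_iteratedFDeriv`), so `g` has the Fréchet derivative `h ↦ fderiv (iteratedFDeriv ..) x h (Fin.tail m)` (compose with the continuous linear evaluation `ContinuousMultilinearMap.apply`), hence the line derivative at `t = 0` of
`t ↦ g (x + t • m 0)` is the left side; by `k6b_Sheet.hasDerivAt_line Dl G x (m 0) 0` and `HasDerivAt.unique` (after `Filter.EventuallyEq.hasDerivAt_iff`) it is `(G.dv Dl (m 0)).val Dl x`. -/
theorem kpr1_sheet_iter (Dl : MvPolynomial (Fin n) ℝ) (F : k6b_Sheet n) (i : ℕ) (x : Fin n → ℝ) (hx : 0 < eval x Dl) (m : Fin i → Fin n → ℝ) :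
    iteratedFDeriv ℝ i (F.val Dl) x m = ((List.ofFn m).foldr (k6b_Sheet.dv Dl) F).val Dl x := by
  induction i generalizing x with
  | zero => rw [iteratedFDeriv_zero_apply, List.ofFn_zero, List.foldr_nil]
  | succ i ih =>
    rw [iteratedFDeriv_succ_apply_left, List.ofFn_succ, List.foldr_cons]
    have hopen : IsOpen {y : Fin n → ℝ | 0 < eval y Dl} := isOpen_lt continuous_const (kpr1a_eval_contDiff Dl 0).continuous
    have hev : (fun y => iteratedFDeriv ℝ i (F.val Dl) y (Fin.tail m)) =ᶠ[nhds x]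
        ((List.ofFn (Fin.tail m)).foldr (k6b_Sheet.dv Dl) F).val Dl := by
      filter_upwards [hopen.mem_nhds hx] with y hy
      exact ih y hy (Fin.tail m)
    have hd : DifferentiableAt ℝ (iteratedFDeriv ℝ i (F.val Dl)) x :=
      (kpr1_sheet_contDiffAt Dl F x hx (i + 1)).differentiableAt_iteratedFDeriv (by exact_mod_cast Nat.lt_succ_self i)
    have h1 : HasFDerivAt (fun y => iteratedFDeriv ℝ i (F.val Dl) y (Fin.tail m))
        ((ContinuousMultilinearMap.apply ℝ (fun _ : Fin i => Fin n → ℝ) ℝ (Fin.tail m)).comp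
          (fderiv ℝ (iteratedFDeriv ℝ i (F.val Dl)) x)) x :=
      (ContinuousMultilinearMap.apply ℝ (fun _ : Fin i => Fin n → ℝ) ℝ (Fin.tail m)).hasFDerivAt.comp x hd.hasFDerivAt
    have h2 := hev.hasFDerivAt_iff.1 h1
    have hl : HasDerivAt (fun t : ℝ => x + t • m 0) (m 0) 0 := by
      have := ((hasDerivAt_id (0 : ℝ)).smul_const (m 0)).const_add x
      simpa using this
    have h2' : HasFDerivAt (((List.ofFn (Fin.tail m)).foldr (k6b_Sheet.dv Dl) F).val Dl)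
        ((ContinuousMultilinearMap.apply ℝ (fun _ : Fin i => Fin n → ℝ) ℝ (Fin.tail m)).comp
          (fderiv ℝ (iteratedFDeriv ℝ i (F.val Dl)) x)) (x + (0 : ℝ) • m 0) := by
      rw [zero_smul, add_zero]
      exact h2
    have h3 := h2'.comp_hasDerivAt (0 : ℝ) hl
    have hx' : 0 < eval (x + (0 : ℝ) • m 0) Dl := by
      rw [zero_smul, add_zero]
      exact hx
    have h4 := k6b_Sheet.hasDerivAt_line Dl ((List.ofFn (Fin.tail m)).foldr (k6b_Sheet.dv Dl) F) x (m 0) 0 hx'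
    have h5 := h3.unique h4
    rw [zero_smul, add_zero] at h5
    exact h5

/-- **L-252-KPR1-A7c** (60 l.)  `ContinuousMultilinearMap.opNorm_le_bound`: if some `m j = 0` both sides vanish (`map_coord_zero`); else apply `h` to `m j / ‖m j‖` and use `map_smul_univ`. -/
theorem kpr1_norm_le_of_unit {i : ℕ} (f : ContinuousMultilinearMap ℝ (fun _ : Fin i => Fin n → ℝ) ℝ) (M : ℝ) (hM : 0 ≤ M)
    (h : ∀ m : Fin i → Fin n → ℝ, (∀ j, ‖m j‖ ≤ 1) → |f m| ≤ M) : ‖f‖ ≤ M := by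
  refine ContinuousMultilinearMap.opNorm_le_bound hM fun m => ?_
  by_cases h0 : ∃ j, m j = 0
  · obtain ⟨j, hj⟩ := h0
    rw [f.map_coord_zero j hj, norm_zero]
    exact mul_nonneg hM (Finset.prod_nonneg fun _ _ => norm_nonneg _)
  · have h0' : ∀ j, m j ≠ 0 := fun j hj => h0 ⟨j, hj⟩
    have hn : ∀ j, ‖m j‖ ≠ 0 := fun j => norm_ne_zero_iff.2 (h0' j)
    have e1 : m = fun j => ‖m j‖ • (‖m j‖⁻¹ • m j) := by
      funext j
      rw [smul_smul, mul_inv_cancel₀ (hn j), one_smul]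
    have h1 := h (fun j => ‖m j‖⁻¹ • m j) (fun j => by
      rw [norm_smul, norm_inv, norm_norm, inv_mul_cancel₀ (hn j)])
    have e2 : f m = (∏ j, ‖m j‖) • f fun j => ‖m j‖⁻¹ • m j := by
      conv_lhs => rw [e1]
      exact f.map_smul_univ _ _
    rw [e2, norm_smul, Real.norm_eq_abs, Real.norm_eq_abs, Finset.abs_prod]
    simp only [abs_norm]
    rw [mul_comm]
    exact mul_le_mul_of_nonneg_right h1 (Finset.prod_nonneg fun _ _ => norm_nonneg _)

/-- **L-252-KPR1-A8** (120 l.)  `c` from `k6b_sq_box n D q` with `Δ0 = 1`.  Smoothness: `kpr1_sheet_contDiffAt` at every point of the ball.  Derivatives: `kpr1_norm_le_of_unit` with `M = c (κ/θ)^c ε / r^i`, `kpr1_sheet_iter`,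
`vs := List.ofFn m` (`List.length_ofFn`, `List.mem_ofFn`). -/
theorem kpr1_sheet_der (n D q : ℕ) : ∃ c : ℕ, ∀ (Dl : MvPolynomial (Fin n) ℝ) (F : k6b_Sheet n) (uc : Fin n → ℝ) (r κ θ ε : ℝ) (E : Set (Fin n → ℝ)),
    F.Deg D Dl → 0 < r → 1 ≤ κ → 0 < θ → θ ≤ 1 → (∀ u ∈ Metric.closedBall uc r, 1 / κ ≤ eval u Dl ∧ eval u Dl ≤ κ) →
    MeasurableSet E → E ⊆ Metric.closedBall uc r → ENNReal.ofReal (θ * (2 * r) ^ n) ≤ volume E → (∀ u ∈ E, |F.val Dl u| ≤ ε) →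
    ContDiffOn ℝ q (F.val Dl) (Metric.ball uc r) ∧
      ∀ u ∈ Metric.ball uc r, ∀ i ≤ q, ‖iteratedFDeriv ℝ i (F.val Dl) u‖ * r ^ i ≤ c * (κ / θ) ^ c * ε := by
  obtain ⟨c, hc⟩ := k6b_sq_box n D q
  refine ⟨c, fun Dl F uc r κ θ ε E hdeg hr hκ hθ hθ1 hDl hEm hE hvol hval => ?_⟩
  have hκ0 : 0 < κ := by linarith
  have hpos : ∀ u ∈ Metric.ball uc r, 0 < eval u Dl := fun u hu =>
    lt_of_lt_of_le (by positivity) (hDl u (Metric.ball_subset_closedBall hu)).1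
  have hε : 0 ≤ ε := by
    have h1 : E.Nonempty := by
      rw [Set.nonempty_iff_ne_empty]
      intro h0
      rw [h0, measure_empty, nonpos_iff_eq_zero, ENNReal.ofReal_eq_zero] at hvol
      exact absurd hvol (not_le.2 (by positivity))
    obtain ⟨u, hu⟩ := h1
    exact (abs_nonneg _).trans (hval u hu)
  refine ⟨fun u hu => (kpr1_sheet_contDiffAt Dl F u (hpos u hu) q).contDiffWithinAt, fun u hu i hi => ?_⟩
  have hri : 0 < r ^ i := by positivity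
  rw [← le_div_iff₀ hri]
  refine kpr1_norm_le_of_unit _ _ (by positivity) fun m hm => ?_
  rw [kpr1_sheet_iter Dl F i u (hpos u hu) m, le_div_iff₀ hri]
  have h1 := hc Dl F uc r κ θ ε 1 E hdeg hr hκ hθ hθ1 one_pos (fun u hu => by rw [mul_one]; exact hDl u hu) hEm hE hvol hval
    (List.ofFn m) (by rw [List.length_ofFn]; exact hi) (fun v hv => by
      rw [List.mem_ofFn] at hv
      obtain ⟨j, rfl⟩ := hv
      exact hm j) u (Metric.ball_subset_closedBall hu)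
  rwa [List.length_ofFn] at h1

/-! ## A9 : numerology -/

/-- **L-252-KPR1-A9** (120 l.)  the final slack.  `Λ = c₀ (K K₁)^c₀`, `ρ = 1/Λ`, `κ = 4K²Λ`, `θ = 1/(K K₂)`.   Take `c := c₀ + c₂ * 4 ^ c₂ * 41 + 4 * c₂ + 9 + q + 2` or larger: `Λ ≤ K₂ ≤ K K₂`, `K ≤ K K₂`, so `κ/θ = 4 K³ Λ K₂ ≤ 4 (K K₂)^4`, `1 / (2ρ)^i ≤ Λ^i ≤ (K K₂)^q`. -/
theorem kpr1_num_ana (c₀ c₂ q : ℕ) (h0 : 4 ≤ c₀) : ∃ c : ℕ, c₀ ≤ c ∧ ∀ K K₁ K₂ : ℝ, 1 ≤ K → 1 ≤ K₁ → (c : ℝ) * (K * K₁) ^ c ≤ K₂ →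
    (c₀ : ℝ) * (K * K₁) ^ c₀ ≤ K₂ ∧ 2 * K ≤ c * (K * K₂) ^ c ∧ K₂ ≤ c * (K * K₂) ^ c ∧
      ∀ i ≤ q, (c₂ : ℝ) * (4 * K ^ 2 * (c₀ * (K * K₁) ^ c₀) / (1 / (K * K₂))) ^ c₂ * (41 * K ^ 9) ≤ c * (K * K₂) ^ c * (2 * (1 / (c₀ * (K * K₁) ^ c₀))) ^ i := by
  obtain ⟨d, hd⟩ : ∃ d : ℕ, d = c₀ + c₂ * 4 ^ c₂ * 41 + 4 * c₂ + 9 + 2 := ⟨_, rfl⟩
  have hd0 : c₀ ≤ d := by omega
  have hd1 : c₂ * 4 ^ c₂ * 41 ≤ d := by omega
  have hd2 : 4 * c₂ + 9 ≤ d := by omega
  have hd3 : 2 ≤ d := by omega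
  refine ⟨q + d, by omega, ?_⟩
  intro K K₁ K₂ hK hK₁ hK₂
  have hK0 : 0 < K := by linarith
  have hKK : 1 ≤ K * K₁ := one_le_mul_of_one_le_of_one_le hK hK₁
  have hc0R : (4 : ℝ) ≤ c₀ := by exact_mod_cast h0
  have hcc : (c₀ : ℝ) ≤ ((q + d : ℕ) : ℝ) := by exact_mod_cast (by omega : c₀ ≤ q + d)
  have hc2 : (2 : ℝ) ≤ ((q + d : ℕ) : ℝ) := by exact_mod_cast (by omega : 2 ≤ q + d)
  have hc41 : (c₂ : ℝ) * 4 ^ c₂ * 41 ≤ ((q + d : ℕ) : ℝ) := by exact_mod_cast (by omega : c₂ * 4 ^ c₂ * 41 ≤ q + d)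
  obtain ⟨Λ, hΛ⟩ : ∃ Λ : ℝ, Λ = c₀ * (K * K₁) ^ c₀ := ⟨_, rfl⟩
  have hΛK₂ : Λ ≤ K₂ := by
    rw [hΛ]
    refine le_trans ?_ hK₂
    exact mul_le_mul hcc (pow_le_pow_right₀ hKK (by omega)) (by positivity) (by positivity)
  have hΛ4 : 4 ≤ Λ := by
    rw [hΛ]
    calc (4 : ℝ) = 4 * 1 := (mul_one 4).symm
      _ ≤ c₀ * (K * K₁) ^ c₀ := mul_le_mul hc0R (one_le_pow₀ hKK) zero_le_one (by positivity)
  rw [← hΛ]
  have hΛ0 : 0 < Λ := by linarith
  have hK₂1 : 1 ≤ K₂ := by linarith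
  obtain ⟨x, hx⟩ : ∃ x : ℝ, x = K * K₂ := ⟨_, rfl⟩
  rw [← hx]
  have hxK : K ≤ x := by
    rw [hx]
    exact le_mul_of_one_le_right hK0.le hK₂1
  have hxK₂ : K₂ ≤ x := by
    rw [hx]
    exact le_mul_of_one_le_left (by linarith) hK
  have hx1 : 1 ≤ x := hK.trans hxK
  have hx0 : 0 < x := by linarith
  have hxc : x ≤ x ^ (q + d) := le_self_pow₀ hx1 (by omega)
  refine ⟨hΛK₂, ?_, ?_, ?_⟩
  · exact mul_le_mul hc2 (hxK.trans hxc) hK0.le (by positivity)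
  · calc K₂ = 1 * K₂ := (one_mul _).symm
      _ ≤ ((q + d : ℕ) : ℝ) * x ^ (q + d) := mul_le_mul (by linarith) (hxK₂.trans hxc) (by linarith) (by positivity)
  · intro i hi
    have hinv0 : 0 ≤ 1 / x := by positivity
    have hinv1 : 1 / x ≤ 1 := by
      rw [div_le_one hx0]
      exact hx1
    have hinvΛ : 1 / x ≤ 2 * (1 / Λ) := by
      have h1 : 1 / x ≤ 1 / Λ := one_div_le_one_div_of_le hΛ0 (hΛK₂.trans hxK₂)
      have h2 : 0 ≤ 1 / Λ := by positivity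
      linarith
    have hy : (1 / x) ^ q ≤ (2 * (1 / Λ)) ^ i :=
      (pow_le_pow_of_le_one hinv0 hinv1 hi).trans (pow_le_pow_left₀ hinv0 hinvΛ i)
    have hxx : x ^ (q + d) * (1 / x) ^ q = x ^ d := by
      rw [pow_add, mul_comm (x ^ q), mul_assoc, ← mul_pow, mul_one_div_cancel hx0.ne', one_pow, mul_one]
    have hbase : 4 * K ^ 2 * Λ / (1 / x) ≤ 4 * x ^ 4 := by
      rw [div_div_eq_mul_div, div_one]
      have h1 : K ^ 2 ≤ x ^ 2 := pow_le_pow_left₀ hK0.le hxK 2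
      have h2 : K ^ 2 * Λ ≤ x ^ 2 * x := mul_le_mul h1 (hΛK₂.trans hxK₂) hΛ0.le (by positivity)
      calc 4 * K ^ 2 * Λ * x = 4 * (K ^ 2 * Λ) * x := by ring
        _ ≤ 4 * (x ^ 2 * x) * x := by gcongr
        _ = 4 * x ^ 4 := by ring
    have hbase0 : 0 ≤ 4 * K ^ 2 * Λ / (1 / x) := by positivity
    have hK9 : K ^ 9 ≤ x ^ 9 := pow_le_pow_left₀ hK0.le hxK 9
    calc (c₂ : ℝ) * (4 * K ^ 2 * Λ / (1 / x)) ^ c₂ * (41 * K ^ 9)
        ≤ (c₂ : ℝ) * (4 * x ^ 4) ^ c₂ * (41 * x ^ 9) := by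
          have h1 := pow_le_pow_left₀ hbase0 hbase c₂
          gcongr
      _ = ((c₂ : ℝ) * 4 ^ c₂ * 41) * x ^ (4 * c₂ + 9) := by
          rw [mul_pow, ← pow_mul, pow_add]
          ring
      _ ≤ ((q + d : ℕ) : ℝ) * x ^ d := mul_le_mul hc41 (pow_le_pow_right₀ hx1 hd2) (by positivity) (by positivity)
      _ = ((q + d : ℕ) : ℝ) * x ^ (q + d) * (1 / x) ^ q := by rw [mul_assoc, hxx]
      _ ≤ ((q + d : ℕ) : ℝ) * x ^ (q + d) * (2 * (1 / Λ)) ^ i := mul_le_mul_of_nonneg_left hy (by positivity)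

end

end Claimed.Agent.R252

end PkPrepH1Ana

section PkPrepH1AnaMain

/-!
# ROW 252 (S0492), unit PREP, hub H1 `kpr_graph`: the analytic exit `kpr1_ana`, PROVED from the leaves of `H1/Ana.lean`.     (helper29)
-/

set_option autoImplicit false

namespace Claimed.Agent.R252

open MeasureTheory MvPolynomial
open scoped ENNReal BigOperators

noncomputable section

theorem kpr1_sgn_abs {k : KsKind} (hk : k ≠ KsKind.centre) : |k.sgn| = 1 := by
  cases k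
  · simp [KsKind.sgn]
  · simp [KsKind.sgn]
  · exact absurd rfl hk

/-- **the analytic exit**: a heavy occupied cell of a heavy label carries a good entry.   `E₁` = base projection of the label, `E₂` = base projection of the entry, `x₀` = one occupied point. -/
theorem kpr1_ana (n ord : ℕ) : ∃ c₀ c : ℕ, 4 ≤ c₀ ∧ c₀ ≤ c ∧ ∀ (P Ps : Kpr1Q n) (k : KsKind) (uc x₀ : Fin n → ℝ) (K K₁ K₂ ρ : ℝ) (E₁ E₂ : Set (Fin n → ℝ)),
    P.Deg → Ps.Deg → 1 ≤ K → 1 ≤ K₁ → (c : ℝ) * (K * K₁) ^ c ≤ K₂ → ρ = 1 / (c₀ * (K * K₁) ^ c₀) →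
    E₁ ⊆ Metric.closedBall 0 K → ENNReal.ofReal (1 / (K * K₁)) ≤ volume E₁ → (∀ x ∈ E₁, |eval x P.disc| ≤ 3 * K ^ 2) →
    MeasurableSet E₂ → E₂ ⊆ Metric.closedBall uc ρ → ENNReal.ofReal (1 / (K * K₂)) ≤ volume E₂ → (∀ x ∈ E₂, |Ps.val x (P.gr k x)| ≤ 41 * K ^ 9) →
    ‖x₀‖ ≤ K → ‖x₀ - uc‖ ≤ ρ →
    (k ≠ KsKind.centre → 1 / (2 * K ^ 2) ≤ eval x₀ P.disc ∧ (P.al = 0 → 0 < k.sgn * eval x₀ P.be)) → (k = KsKind.centre → P.al ≠ 0) →
    Kpr1Good ord P Ps k uc ρ (c * (K * K₂) ^ c) := by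
  obtain ⟨c₀, h4, hball⟩ := kpr1_disc_ball n
  obtain ⟨c₂, hder⟩ := kpr1_sheet_der n 5 ord
  obtain ⟨c, hc0, hnum⟩ := kpr1_num_ana c₀ c₂ ord h4
  refine ⟨c₀, c, h4, hc0, ?_⟩
  intro P Ps k uc x₀ K K₁ K₂ ρ E₁ E₂ hP hPs hK hK₁ hK₂ hρ hE₁ hv₁ hb₁ hm₂ hE₂ hv₂ hb₂ hx₀ hx₀u hroot hctr
  obtain ⟨hΛK₂, h2K, hK₂c, hfin⟩ := hnum K K₁ K₂ hK hK₁ hK₂
  obtain ⟨Λ, hΛ⟩ : ∃ Λ : ℝ, Λ = c₀ * (K * K₁) ^ c₀ := ⟨_, rfl⟩
  rw [← hΛ] at hρ hΛK₂ hfin
  have hKK : 1 ≤ K * K₁ := by nlinarith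
  have hΛ4 : 4 ≤ Λ := by
    rw [hΛ]
    have h1 : (4 : ℝ) ≤ c₀ := by exact_mod_cast h4
    have h2 : 1 ≤ (K * K₁) ^ c₀ := one_le_pow₀ hKK
    nlinarith
  have hΛ0 : 0 < Λ := by linarith
  have hρ0 : 0 < ρ := by rw [hρ]; positivity
  have hρ4 : ρ ≤ 1 / 4 := by
    rw [hρ]
    exact one_div_le_one_div_of_le (by norm_num) hΛ4
  have hK0 : 0 < K := by linarith
  have hK₂0 : 0 < K₂ := by linarith
  have hx₀b : x₀ ∈ Metric.closedBall uc (2 * ρ) := by
    rw [mem_closedBall_iff_norm]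
    linarith
  have hdisc : k ≠ KsKind.centre → ∀ x ∈ Metric.closedBall uc (2 * ρ), 1 / (4 * K ^ 2) ≤ eval x P.disc ∧ eval x P.disc ≤ Λ := by
    intro hk
    have := hball P.disc K K₁ ρ E₁ uc x₀ (kpr1_disc_deg P hP) hK hK₁ hE₁ hv₁ hb₁ (by rw [hρ, hΛ]) hx₀ hx₀u (hroot hk).1
    rwa [← hΛ] at this
  have hpos : k ≠ KsKind.centre → ∀ x ∈ Metric.closedBall uc (2 * ρ), 0 < eval x P.disc := by
    intro hk x hx
    have h1 := (hdisc hk x hx).1
    have h2 : 0 < 1 / (4 * K ^ 2) := by positivity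
    linarith
  have hsign : P.al = 0 → ∀ x ∈ Metric.closedBall uc (2 * ρ), k.sgn * eval x P.be = √(eval x P.disc) := by
    intro hal
    have hk : k ≠ KsKind.centre := fun h => hctr h hal
    exact kpr1_sign P k.sgn (2 * ρ) uc x₀ hal (kpr1_sgn_abs hk) hx₀b ((hroot hk).2 hal) (hpos hk)
  have hval : ∀ x ∈ Metric.closedBall uc (2 * ρ), Ps.val x (P.gr k x) = (kpr1Sh P Ps k).val (kpr1Dl P k) x := fun x hx =>
    kpr1_sheet_val P Ps k x hctr (fun hk => hpos hk x hx) (fun hal => hsign hal x hx)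
  have hκ1 : 1 ≤ 4 * K ^ 2 * Λ := by
    have : 1 ≤ K ^ 2 := one_le_pow₀ hK
    nlinarith
  have hDl : ∀ x ∈ Metric.closedBall uc (2 * ρ), 1 / (4 * K ^ 2 * Λ) ≤ eval x (kpr1Dl P k) ∧ eval x (kpr1Dl P k) ≤ 4 * K ^ 2 * Λ := by
    intro x hx
    unfold kpr1Dl
    split_ifs with hk
    · simp only [map_one]
      refine ⟨?_, hκ1⟩
      rw [div_le_iff₀ (by positivity)]
      linarith
    · obtain ⟨h1, h2⟩ := hdisc hk x hx
      have hK2 : 1 ≤ K ^ 2 := one_le_pow₀ hK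
      refine ⟨le_trans ?_ h1, h2.trans (by nlinarith)⟩
      apply one_div_le_one_div_of_le (by positivity)
      nlinarith
  have hθ0 : 0 < 1 / (K * K₂) := by positivity
  have hK₂1 : 1 ≤ K₂ := by linarith
  have hθ1 : 1 / (K * K₂) ≤ 1 := by
    rw [div_le_one (by positivity)]
    nlinarith
  have hvol : ENNReal.ofReal (1 / (K * K₂) * (2 * (2 * ρ)) ^ n) ≤ volume E₂ := by
    refine le_trans (ENNReal.ofReal_le_ofReal ?_) hv₂
    have h1 : (2 * (2 * ρ)) ^ n ≤ 1 := pow_le_one₀ (by positivity) (by linarith)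
    nlinarith
  have hE₂' : E₂ ⊆ Metric.closedBall uc (2 * ρ) := hE₂.trans (Metric.closedBall_subset_closedBall (by linarith))
  obtain ⟨hsm, hdr⟩ := hder (kpr1Dl P k) (kpr1Sh P Ps k) uc (2 * ρ) (4 * K ^ 2 * Λ) (1 / (K * K₂)) (41 * K ^ 9) E₂
    (kpr1_sheet_deg P Ps hP hPs k) (by positivity) hκ1 hθ0 hθ1 hDl hm₂ hE₂' hvol (fun u hu => by rw [← hval u (hE₂' hu)]; exact hb₂ u hu)
  have hsub : Metric.ball uc (2 * ρ) ⊆ Metric.closedBall uc (2 * ρ) := Metric.ball_subset_closedBall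
  refine ⟨?_, ?_, ?_, ?_⟩
  · intro hk x hx
    have hx' := hsub hx
    obtain ⟨h1, h2⟩ := hdisc hk x hx'
    have hp := hpos hk x hx'
    have hs2 := kpr1_sgn_sq hk
    have hsq : 1 / (2 * K) ≤ √(eval x P.disc) := by
      apply Real.le_sqrt_of_sq_le
      refine le_trans (le_of_eq ?_) h1
      field_simp
      ring
    have hsq2 : √(eval x P.disc) ≤ Λ := by
      rw [Real.sqrt_le_left (by linarith)]
      nlinarith
    have hdw : P.dw x (P.gr k x) = k.sgn * √(eval x P.disc) ∧ P.val x (P.gr k x) = 0 := by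
      by_cases hal : P.al = 0
      · have h3 := hsign hal x hx'
        have hb : eval x P.be ≠ 0 := by
          intro h0
          rw [h0, mul_zero] at h3
          have := Real.sqrt_pos.2 hp
          linarith
        obtain ⟨h4, h5, _⟩ := kpr1_root_zero P k x hal hb
        refine ⟨?_, h5⟩
        rw [h4, ← h3, ← mul_assoc, ← pow_two, hs2, one_mul]
      · obtain ⟨h4, h5⟩ := kpr1_root_ne P k x hal hp.le
        exact ⟨h4, h5 hk⟩
    refine ⟨hdw.2, ?_, ?_⟩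
    · have h6 : k.sgn * (k.sgn * √(eval x P.disc)) = √(eval x P.disc) := by
        rw [← mul_assoc, ← pow_two, hs2, one_mul]
      rw [hdw.1, h6]
      have h5 : 1 ≤ 2 * K * √(eval x P.disc) := by
        have := mul_le_mul_of_nonneg_left hsq (by positivity : (0 : ℝ) ≤ 2 * K)
        rwa [mul_one_div_cancel (by positivity)] at this
      exact h5.trans (mul_le_mul_of_nonneg_right h2K (Real.sqrt_nonneg _))
    · rw [hdw.1, abs_mul, kpr1_sgn_abs hk, one_mul, abs_of_nonneg (Real.sqrt_nonneg _)]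
      linarith
  · intro hk x hx
    have hal := hctr hk
    subst hk
    unfold Kpr1Q.dw Kpr1Q.gr
    rw [if_neg hal]
    simp only [KsKind.sgn]
    field_simp
    ring
  · exact hsm.congr fun x hx => hval x (hsub hx)
  · intro x hx i hi
    have heq : (fun x => Ps.val x (P.gr k x)) =ᶠ[nhds x] (kpr1Sh P Ps k).val (kpr1Dl P k) :=
      Filter.eventuallyEq_of_mem (Metric.isOpen_ball.mem_nhds hx) fun y hy => hval y (hsub hy)
    rw [(Filter.EventuallyEq.iteratedFDeriv (𝕜 := ℝ) heq i).eq_of_nhds]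
    have h1 := hdr x hx i hi
    have h2 := hfin i hi
    have h3 : 0 < (2 * ρ) ^ i := by positivity
    rw [← hρ] at h2
    exact le_of_mul_le_mul_right (h1.trans h2) h3

end

end Claimed.Agent.R252

end PkPrepH1AnaMain
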