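import Claimed.Agent.R252.Prep.H1.Ana

/-! PACKED FILE (helper29, closed unit PREP-H1 `kpr_graph`, FROZEN): parts Rec, Main.  Each part is wrapped in its own `section`. -/

section PkPrepH1Rec

/-!
# ROW 252 (S0492), unit PREP, hub H1 `kpr_graph`: CONTRACT file 2 = THE RECORD LEVEL (forms of the tests, change of variables, measurability, selector, losses).      Leaves L-252-KPR1-R*.

Every `sorry` is a PAPER-FREE leaf; the complete proof is in the docstring.  Prove IN PLACE (splice only your theorem); sorried neighbours (and the leaves of `Prep/Parts.lean`) may be cited.  Private helper lemmas: prefix `kpr1r_`.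
Definitions: `Prep/H1/Defs.lean`; records: `State/KsCore.lean` (`KsRef`), `Prep/Parts.lean` (`OkLab`).   `n = v.j + 1`.
-/

set_option autoImplicit false

namespace Claimed.Agent.R252

open MeasureTheory MvPolynomial
open scoped ENNReal BigOperators

noncomputable section

variable {v : KbVer}

/-! ## R1 : forms -/

/-- **L-252-KPR1-R1** (150 l.)  `obtain ⟨q, hq⟩ := hT` (`KbQuad` coefficients).  Affine polynomials in `x ∈ ℝ^(j+1)` : `τ := C (t0 Q) + C (q Q) * X 0`,  `η i := C (y0 i) + C (y1 i) * τ + ∑ k, C (D i k) * X k.succ`, so that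
`eval (kpr1E u) τ = (R.ofUnit Q u).1`, `eval (kpr1E u) (η i) = (R.ofUnit Q u).2 i` (unfold `KsRef.ofUnit`, `KbChart.yc`, `Matrix.mulVec`, `dotProduct`; `kpr1_E_zero`, `kpr1_E_succ`).
`al := q.cww`, `be := C q.cw + C q.ctw * τ + ∑ i, C (q.cyw i) * η i`, `ga := C q.c0 + C q.ct * τ + ∑ i, C (q.cy i) * η i + C q.ctt * τ^2 + τ * ∑ i, C (q.cty i) * η i + ∑ i, η i * ∑ k, C (q.cyy i k) * η k`.
Degrees: `ksl18_deg_add`, `ksl18_deg_mul`, `ksl18_deg_sum`, `ksl18_deg_C`, `ksl18_deg_X` (`State/KsLoc.lean`).  Values: `hq`, unfold `KbQuad.ev`, `Kpr1Q.val`, `simp only [map_add, map_mul, map_sum, map_pow, eval_C, eval_X]`, `ring`-type rearrangement. -/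
theorem kpr1_form_ex (R : KsRef v) (Q : R.Lab) {T : KbTest v} (hT : KbIsQuad T) : ∃ P, kpr1IsForm R Q T P := by
  obtain ⟨q, hq⟩ := hT
  obtain ⟨τ, hτd⟩ : ∃ τ : MvPolynomial (Fin (v.j + 1)) ℝ, τ = C (R.t0 Q) + C (R.q Q) * X 0 := ⟨_, rfl⟩
  obtain ⟨η, hηd⟩ : ∃ η : Fin v.j → MvPolynomial (Fin (v.j + 1)) ℝ,
      η = fun i => C ((R.ch Q).y0 i) + C ((R.ch Q).y1 i) * τ + ∑ k : Fin v.j, C ((R.ch Q).D i k) * X k.succ := ⟨_, rfl⟩
  have c1 : ∀ a : ℝ, (C a : MvPolynomial (Fin (v.j + 1)) ℝ).totalDegree ≤ 1 := fun a => (ksl18_deg_C a).trans (by norm_num)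
  have c2 : ∀ a : ℝ, (C a : MvPolynomial (Fin (v.j + 1)) ℝ).totalDegree ≤ 2 := fun a => (ksl18_deg_C a).trans (by norm_num)
  have dτ : τ.totalDegree ≤ 1 := by
    rw [hτd]
    exact ksl18_deg_add (c1 _) (ksl18_deg_mul 0 1 (ksl18_deg_C _) (ksl18_deg_X _) le_rfl)
  have dη : ∀ i, (η i).totalDegree ≤ 1 := by
    intro i
    rw [hηd]
    exact ksl18_deg_add (ksl18_deg_add (c1 _) (ksl18_deg_mul 0 1 (ksl18_deg_C _) dτ le_rfl))
      (ksl18_deg_sum _ _ fun k _ => ksl18_deg_mul 0 1 (ksl18_deg_C _) (ksl18_deg_X _) le_rfl)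
  have dCη : ∀ (a : ℝ) (i : Fin v.j), (C a * η i).totalDegree ≤ 1 := fun a i => ksl18_deg_mul 0 1 (ksl18_deg_C _) (dη i) le_rfl
  have dCτ : ∀ a : ℝ, (C a * τ).totalDegree ≤ 1 := fun a => ksl18_deg_mul 0 1 (ksl18_deg_C _) dτ le_rfl
  have eτ : ∀ u : ℝ × KbB v, eval (kpr1E u) τ = (R.ofUnit Q u).1 := by
    intro u
    rw [hτd]
    simp only [map_add, map_mul, eval_C, eval_X, kpr1_E_zero]
    rfl
  have eη : ∀ (u : ℝ × KbB v) (i : Fin v.j), eval (kpr1E u) (η i) = (R.ofUnit Q u).2 i := by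
    intro u i
    rw [hηd]
    simp only [map_add, map_mul, map_sum, eval_C, eval_X, kpr1_E_succ, eτ]
    simp only [KsRef.ofUnit, KbChart.yc, Matrix.mulVec, dotProduct, Pi.add_apply, Pi.smul_apply, smul_eq_mul]
    ring
  refine ⟨⟨q.cww, C q.cw + C q.ctw * τ + ∑ i, C (q.cyw i) * η i,
    C q.c0 + C q.ct * τ + ∑ i, C (q.cy i) * η i + C q.ctt * τ ^ 2 + τ * ∑ i, C (q.cty i) * η i + ∑ i, η i * ∑ k, C (q.cyy i k) * η k⟩, ⟨?_, ?_⟩, ?_⟩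
  · exact ksl18_deg_add (ksl18_deg_add (c1 _) (dCτ _)) (ksl18_deg_sum _ _ fun i _ => dCη _ i)
  · refine ksl18_deg_add (ksl18_deg_add (ksl18_deg_add (ksl18_deg_add (ksl18_deg_add (c2 _) ((dCτ _).trans (by norm_num))) ?_) ?_) ?_) ?_
    · exact ksl18_deg_sum _ _ fun i _ => (dCη _ i).trans (by norm_num)
    · rw [pow_two]
      exact ksl18_deg_mul 0 2 (ksl18_deg_C _) (ksl18_deg_mul 1 1 dτ dτ le_rfl) le_rfl
    · exact ksl18_deg_mul 1 1 dτ (ksl18_deg_sum _ _ fun i _ => dCη _ i) le_rfl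
    · exact ksl18_deg_sum _ _ fun i _ => ksl18_deg_mul 1 1 (dη i) (ksl18_deg_sum _ _ fun k _ => dCη _ k) le_rfl
  · intro u w
    rw [hq]
    simp only [Kpr1Q.val, KbQuad.ev, map_add, map_mul, map_sum, map_pow, eval_C, eτ, eη, dotProduct, Matrix.mulVec]
    ring

theorem kpr1_form_spec (R : KsRef v) (Q : R.Lab) {T : KbTest v} (hT : KbIsQuad T) : kpr1IsForm R Q T (kpr1Form R Q T) :=
  Classical.epsilon_spec (kpr1_form_ex R Q hT)

/-- the finite differences of a form -/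
theorem kpr1_form_dw {R : KsRef v} {Q : R.Lab} {T : KbTest v} {P : Kpr1Q (v.j + 1)} (h : kpr1IsForm R Q T P) (u : ℝ × KbB v) (w : ℝ) :
    kbDw T (R.ofUnit Q u).1 (R.ofUnit Q u).2 w = P.dw (kpr1E u) w ∧ kbDww T (R.ofUnit Q u).1 (R.ofUnit Q u).2 w = 2 * P.al := by
  constructor
  · simp only [kbDw, h.2, Kpr1Q.val, Kpr1Q.dw]
    ring
  · simp only [kbDww, h.2, Kpr1Q.val]
    ring

/-! ## R2 : the pointwise facts -/

/-- **L-252-KPR1-R2a** (25 l.)  `R.a s = N ^ (-s)`, `N ≥ 2`, `dep ≥ 0` : `Real.rpow_pos_of_pos`, `Real.rpow_le_one_of_one_le_of_nonpos`. -/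
theorem kpr1_a_bd {R : KsRef v} {K : ℝ} (hL : R.OkLab K) (Q : R.Lab) : 0 < R.a (R.dep Q) ∧ R.a (R.dep Q) ≤ 1 := by
  have hN : (2 : ℝ) ≤ R.N := hL.N_ge
  constructor
  · exact Real.rpow_pos_of_pos (by linarith) _
  · exact Real.rpow_le_one_of_one_le_of_nonpos (by linarith) (by linarith [hL.dep_nonneg Q])

/-- **L-252-KPR1-R2b** (150 l.)  `p = (l, t)`, `l ∈ asg Q`, `t ∈ blk Q`, `z := R.base p = (t, R.y l t)`, `u := R.unit Q z`, so `R.ofUnit Q u = z` (`kpr_ofUnit_unit hL`).  With the forms (`kpr1_form_spec`, quadratic by `hL.tst_adm`, `hL.nat_adm`) and `kpr1_form_dw` at `u`: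
`(Tf).val x w = R.tst Q t (y l t) w = R.ev (R.tst Q) l t` (all `rfl` after unfolding `KsRef.ev`, `kbX`, `KsRef.w`, `KsRef.y`, `KsRef.base`), likewise `dw`; `2 al = kbDww ..`.  Native: `R.par l = R.lpar Q` (`hL.asg_par`), `R.X`.
Fields: `x_bd` : `‖x‖ = ‖u‖ = max |u.1| ‖u.2‖` (`kpr1_E_norm`), `u.1 = (t - t0)/q ∈ [0,1)` (`t ∈ kbI lev iv`), `‖u.2‖ ≤ K` (`hL.box_mem`), `1 ≤ K`;  `val` `hL.tst_val`; `dw_hi` `hL.tst_w`; `dw_lo` `hL.tst_lo`; `ww` `hL.tst_ww`;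
`nval` `hL.X_bd` (`l ∈ Sp`, `t ∈ [0,1]` by `hL.Ev0_sub`), `ndw` `hL.nat_w`, `nww` `hL.nat_ww`. -/
theorem kpr1_pt {R : KsRef v} {K : ℝ} (hL : R.OkLab K) (Q : R.Lab) (p : R.L × ℝ) (hp : p ∈ R.Ev0 ∩ R.inc Q) :
    Kpr1Pt (kpr1Tf R Q) (kpr1Nf R Q) K (R.a (R.dep Q)) (kpr1X R Q p) (R.w p.1 p.2) ∧
      (kpr1Tf R Q).dw (kpr1X R Q p) (R.w p.1 p.2) = R.ev (kbDw (R.tst Q)) p.1 p.2 := by
  obtain ⟨hp0, hl, ht⟩ := hp
  have hSp := hL.Ev0_sub hp0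
  have hlS : p.1 ∈ R.Sp := hSp.1
  have ht01 : p.2 ∈ Set.Icc (0 : ℝ) 1 := hSp.2
  have hz : R.ofUnit Q (R.unit Q (R.base p)) = R.base p := kpr_ofUnit_unit hL Q _
  have hT : kpr1IsForm R Q (R.tst Q) (kpr1Tf R Q) := kpr1_form_spec R Q (hL.tst_adm Q).1
  have hNf : kpr1IsForm R Q (R.nat (R.lpar Q)) (kpr1Nf R Q) := kpr1_form_spec R Q (hL.nat_adm _).1
  have hpar : R.par p.1 = R.lpar Q := hL.asg_par Q hl
  have e1 : (kpr1Tf R Q).val (kpr1X R Q p) (R.w p.1 p.2) = R.ev (R.tst Q) p.1 p.2 := by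
    have := hT.2 (R.unit Q (R.base p)) (R.w p.1 p.2)
    rw [hz] at this
    exact this.symm
  have e2 : (kpr1Tf R Q).dw (kpr1X R Q p) (R.w p.1 p.2) = R.ev (kbDw (R.tst Q)) p.1 p.2 := by
    have := (kpr1_form_dw hT (R.unit Q (R.base p)) (R.w p.1 p.2)).1
    rw [hz] at this
    exact this.symm
  have e3 : 2 * (kpr1Tf R Q).al = kbDww (R.tst Q) p.2 (R.y p.1 p.2) (R.w p.1 p.2) := by
    have := (kpr1_form_dw hT (R.unit Q (R.base p)) (R.w p.1 p.2)).2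
    rw [hz] at this
    exact this.symm
  have e4 : (kpr1Nf R Q).val (kpr1X R Q p) (R.w p.1 p.2) = R.X p.1 p.2 := by
    have := hNf.2 (R.unit Q (R.base p)) (R.w p.1 p.2)
    rw [hz, ← hpar] at this
    exact this.symm
  have e5 : (kpr1Nf R Q).dw (kpr1X R Q p) (R.w p.1 p.2) = R.ev (kbDw (R.nat (R.par p.1))) p.1 p.2 := by
    have := (kpr1_form_dw hNf (R.unit Q (R.base p)) (R.w p.1 p.2)).1
    rw [hz, ← hpar] at this
    exact this.symm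
  have e6 : 2 * (kpr1Nf R Q).al = kbDww (R.nat (R.lpar Q)) p.2 (R.y p.1 p.2) (R.w p.1 p.2) := by
    have := (kpr1_form_dw hNf (R.unit Q (R.base p)) (R.w p.1 p.2)).2
    rw [hz] at this
    exact this.symm
  refine ⟨⟨?_, ?_, ?_, ?_, ?_, ?_, ?_, ?_⟩, e2⟩
  · show ‖kpr1E (R.unit Q (R.base p))‖ ≤ K
    rw [kpr1_E_norm, Prod.norm_def]
    refine max_le ?_ (hL.box_mem Q p.1 hl p.2 ht)
    have hq : 0 < R.q Q := by
      unfold KsRef.q kbQ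
      positivity
    have h1 : R.t0 Q ≤ p.2 := ht.1
    have h2 : p.2 < R.t0 Q + R.q Q := by
      have := ht.2
      unfold KsRef.t0 KsRef.q
      linarith
    show ‖(p.2 - R.t0 Q) / R.q Q‖ ≤ K
    rw [Real.norm_eq_abs, abs_of_nonneg (div_nonneg (by linarith) hq.le), div_le_iff₀ hq]
    nlinarith [hL.K_ge]
  · rw [e1]; exact hL.tst_val Q p.1 hl p.2 ht
  · rw [e2]; exact hL.tst_w Q p.1 hl p.2 ht
  · rw [e2]; exact hL.tst_lo Q p ⟨hp0, hl, ht⟩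
  · rw [e3]; exact hL.tst_ww Q _ _ _
  · rw [e4]; exact hL.X_bd p.1 hlS p.2 ht01
  · rw [e5]; exact hL.nat_w p.1 hlS p.2 ht01
  · rw [e6]; exact hL.nat_ww _ _ _ _

/-! ## R3 : change of variables and the packet base cap in unit coordinates -/

/-- **L-252-KPR1-R3a** (60 l.)  all maps are continuous: `kpr1E` (`(kpr1Iso _).continuous`), `R.unit Q` (affine: `Continuous.prodMk`, `Continuous.matrix_mulVec` / `continuous_pi`, `KbChart.yc`). -/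
theorem kpr1_meas_unit (R : KsRef v) (Q : R.Lab) : Measurable fun z : ℝ × KbB v => kpr1E (R.unit Q z) := by
  have hmv : Measurable fun y : KbB v => (R.ch Q).Di.mulVec y := (Continuous.matrix_mulVec continuous_const continuous_id).measurable
  have hyc : Measurable fun t : ℝ => (R.ch Q).yc t := by
    unfold KbChart.yc
    exact measurable_const.add (measurable_id.smul_const _)
  have hu : Measurable (R.unit Q) :=
    ((measurable_fst.sub_const _).div_const _).prodMk (hmv.comp (measurable_snd.sub (hyc.comp measurable_fst)))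
  exact (kpr1Iso v.j).continuous.measurable.comp hu

theorem kpr1r_cons_mp (j : ℕ) : MeasurePreserving (fun u : ℝ × (Fin j → ℝ) => (Fin.cons u.1 u.2 : Fin (j + 1) → ℝ)) volume volume := by
  have h := (volume_preserving_piFinSuccAbove (fun _ : Fin (j + 1) => ℝ) 0).symm
  have e : (fun u : ℝ × (Fin j → ℝ) => (Fin.cons u.1 u.2 : Fin (j + 1) → ℝ)) = ⇑(MeasurableEquiv.piFinSuccAbove (fun _ : Fin (j + 1) => ℝ) 0).symm := by
    funext u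
    exact (Fin.insertNth_zero' u.1 u.2).symm
  rw [e]
  exact h

theorem kpr1r_vol_aux {j : ℕ} (D Di : Matrix (Fin j) (Fin j) ℝ) (h : D * Di = 1) (c : ℝ → Fin j → ℝ) (hc : Measurable c) (t0 q : ℝ) (hq : 0 < q)
    (B : Set (ℝ × (Fin j → ℝ))) (hB : MeasurableSet B) :
    volume {z : ℝ × (Fin j → ℝ) | ((z.1 - t0) / q, Di.mulVec (z.2 - c z.1)) ∈ B} = ENNReal.ofReal (q * |D.det|) * volume B := by
  have hdet : D.det * Di.det = 1 := by rw [← Matrix.det_mul, h, Matrix.det_one]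
  have hDi : Di.det ≠ 0 := right_ne_zero_of_mul_eq_one hdet
  have hinv : (Di.det)⁻¹ = D.det := (eq_inv_of_mul_eq_one_left hdet).symm
  have hmv : Measurable fun y : Fin j → ℝ => Di.mulVec y := (Continuous.matrix_mulVec continuous_const continuous_id).measurable
  have hφ : Measurable fun z : ℝ × (Fin j → ℝ) => (((z.1 - t0) / q, Di.mulVec (z.2 - c z.1)) : ℝ × (Fin j → ℝ)) :=
    ((measurable_fst.sub_const _).div_const _).prodMk (hmv.comp (measurable_snd.sub (hc.comp measurable_fst)))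
  have hS : MeasurableSet {z : ℝ × (Fin j → ℝ) | ((z.1 - t0) / q, Di.mulVec (z.2 - c z.1)) ∈ B} := hφ hB
  rw [Measure.volume_eq_prod, Measure.prod_apply hS, Measure.prod_apply hB]
  have hg : Measurable fun s : ℝ => volume (Prod.mk s ⁻¹' B) := measurable_measure_prodMk_left hB
  have inner : ∀ t : ℝ, volume (Prod.mk t ⁻¹' {z : ℝ × (Fin j → ℝ) | ((z.1 - t0) / q, Di.mulVec (z.2 - c z.1)) ∈ B})
      = ENNReal.ofReal |D.det| * volume (Prod.mk ((t - t0) / q) ⁻¹' B) := by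
    intro t
    have e : Prod.mk t ⁻¹' {z : ℝ × (Fin j → ℝ) | ((z.1 - t0) / q, Di.mulVec (z.2 - c z.1)) ∈ B}
        = (fun y => y + (-c t)) ⁻¹' ((Matrix.toLin' Di) ⁻¹' (Prod.mk ((t - t0) / q) ⁻¹' B)) := by
      ext y
      simp [sub_eq_add_neg]
    rw [e, measure_preimage_add_right, Measure.addHaar_preimage_linearMap volume (by rwa [LinearMap.det_toLin']), LinearMap.det_toLin', hinv]
  simp only [inner]
  rw [lintegral_const_mul' _ _ ENNReal.ofReal_ne_top]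
  have hmap : Measure.map (fun t : ℝ => (t - t0) / q) volume = ENNReal.ofReal q • volume := by
    have e : (fun t : ℝ => (t - t0) / q) = (fun t => q⁻¹ * t) ∘ (fun t => t + (-t0)) := by
      funext t
      simp [sub_eq_add_neg, div_eq_inv_mul]
    rw [e, ← Measure.map_map (measurable_const_mul _) (measurable_add_const _), map_add_right_eq_self, Real.map_volume_mul_left (inv_ne_zero hq.ne'), inv_inv, abs_of_pos hq]
  have hcv : ∫⁻ t : ℝ, volume (Prod.mk ((t - t0) / q) ⁻¹' B) = ENNReal.ofReal q * ∫⁻ s : ℝ, volume (Prod.mk s ⁻¹' B) := by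
    have hm : Measurable fun t : ℝ => (t - t0) / q := (measurable_id.sub_const _).div_const _
    have := lintegral_map (μ := volume) hg hm
    rw [← this, hmap, lintegral_smul_measure, smul_eq_mul]
  rw [hcv, ← mul_assoc, ← ENNReal.ofReal_mul (abs_nonneg _), mul_comm q]

/-- **L-252-KPR1-R3b** (250 l.)  `z ↦ kpr1E (R.unit Q z)` is an affine bijection of determinant `1 / (q det D)`.   ROUTE (Tonelli): `kpr1E` is volume preserving (`(volume_preserving_piFinSuccAbove (fun _ => ℝ) 0).symm`, `Fin.insertNth_zero` = `Fin.cons`), so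
`volume E' = volume (kpr1E ⁻¹' E') =: volume B`, `B ⊆ ℝ × ℝ^j` measurable.  `volume {z | unit z ∈ B} = ∫⁻ t, volume {y | Di (y - yc t) ∈ B_((t - t0)/q)}` (`Measure.prod_apply`, `volume_eq_prod`);  for a fixed `t` the inner set is a translate of the preimage of the section under
`Di.mulVec = Matrix.toLin' Di` : `Measure.addHaar_preimage_linearMap` (`det Di ≠ 0`), `measure_preimage_add_right`; `|det Di|⁻¹ = |det D| = J` (`hL.inv`, `Matrix.det_mul`).   Then `∫⁻ t, f ((t - t0)/q) = q ∫⁻ s, f s` (`lintegral_comp_mul_left`-type lemmas, or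
`Measure.addHaar_preimage_smul` through `MeasurePreserving`; `Real.map_linearMap_volume..`).   ALTERNATIVE: one linear map on `ℝ × ℝ^j` + translation and `LinearMap.det` of a block triangular map. -/
theorem kpr1_vol {R : KsRef v} {K : ℝ} (hL : R.OkLab K) (Q : R.Lab) (E' : Set (Fin (v.j + 1) → ℝ)) (hE' : MeasurableSet E') :
    volume {z : ℝ × KbB v | kpr1E (R.unit Q z) ∈ E'} = ENNReal.ofReal (R.q Q * R.J Q) * volume E' := by
  have hyc : Measurable fun t : ℝ => (R.ch Q).yc t := by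
    unfold KbChart.yc
    exact measurable_const.add (measurable_id.smul_const _)
  have hmp := kpr1r_cons_mp v.j
  have hB : MeasurableSet ((fun u : ℝ × (Fin v.j → ℝ) => (Fin.cons u.1 u.2 : Fin (v.j + 1) → ℝ)) ⁻¹' E') := hmp.measurable hE'
  have h := kpr1r_vol_aux (R.ch Q).D (R.ch Q).Di (hL.inv Q) (fun t => (R.ch Q).yc t) hyc (R.t0 Q) (R.q Q) (ksl8_q_pos R Q) _ hB
  rw [hmp.measure_preimage hE'.nullMeasurableSet] at h
  exact h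

theorem kpr1r_J_pos {R : KsRef v} {K : ℝ} (hL : R.OkLab K) (Q : R.Lab) : 0 < R.J Q := by
  have hdet : (R.ch Q).D.det * (R.ch Q).Di.det = 1 := by rw [← Matrix.det_mul, hL.inv Q, Matrix.det_one]
  exact abs_pos.2 (left_ne_zero_of_mul_eq_one hdet)

/-- **L-252-KPR1-R3c** (70 l.)  `hL.capQ Q U` with `U := {z | kpr1E (R.unit Q z) ∈ E'}` (measurable: `kpr1_meas_unit`), `kpr1_vol`; `0 < J` (`hL.inv` : `det D ≠ 0`), cancel `ofReal J` (`ENNReal.mul_le_mul_left`), `ENNReal.ofReal_mul`. -/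
theorem kpr1_cap {R : KsRef v} {K : ℝ} (hL : R.OkLab K) (Q : R.Lab) (E' : Set (Fin (v.j + 1) → ℝ)) (hE' : MeasurableSet E') :
    R.lam0 (R.inc Q ∩ {p | kpr1X R Q p ∈ E'}) ≤ ENNReal.ofReal K * (ENNReal.ofReal (R.q Q) * R.νQ Q) * volume E' := by
  have hU : MeasurableSet {z : ℝ × KbB v | kpr1E (R.unit Q z) ∈ E'} := kpr1_meas_unit R Q hE'
  have h := hL.capQ Q _ hU
  rw [kpr1_vol hL Q E' hE', ENNReal.ofReal_mul (ksl8_q_pos R Q).le] at h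
  have hJ0 : ENNReal.ofReal (R.J Q) ≠ 0 := by
    rw [Ne, ENNReal.ofReal_eq_zero, not_le]
    exact kpr1r_J_pos hL Q
  have h2 : ENNReal.ofReal (R.J Q) * R.lam0 (R.inc Q ∩ {p | kpr1X R Q p ∈ E'})
      ≤ ENNReal.ofReal (R.J Q) * (ENNReal.ofReal K * (ENNReal.ofReal (R.q Q) * R.νQ Q) * volume E') := by
    refine le_trans h (le_of_eq ?_)
    ring
  exact (ENNReal.mul_le_mul_iff_right hJ0 ENNReal.ofReal_ne_top).1 h2

theorem kpr1r_lam0_apply {R : KsRef v} {K : ℝ} (hL : R.OkLab K) (A : Set (R.L × ℝ)) : R.lam0 A = R.prior (A ∩ R.Ev0) :=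
  Measure.restrict_apply' hL.m_Ev0

/-- **L-252-KPR1-R3d** (100 l.)  a heavy set of incidences of a label has a large base projection.  `lam0 A = prior (A ∩ Ev0)` (`Measure.restrict_apply' hL.m_Ev0`) `≤ lam0 (inc Q ∩ {x ∈ E'})` (monotonicity, same formula), `kpr1_cap`.
`m := ofReal q * νQ` : `m ≠ 0` (else `lam0 A ≤ .. = 0`), `m ≠ ⊤` (`νQ ≤ 1`, probability).  `m ≤ Kx lam0 A ≤ Kx K m vol` : cancel `m`; `1 ≤ ofReal (K Kx) * vol` gives the claim (`ENNReal.ofReal_div_of_pos`, `ENNReal.div_le_iff`). -/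
theorem kpr1_vol_heavy {R : KsRef v} {K Kx : ℝ} (hL : R.OkLab K) (hKx : 1 ≤ Kx) (Q : R.Lab) (A : Set (R.L × ℝ)) (E' : Set (Fin (v.j + 1) → ℝ)) (hE' : MeasurableSet E')
    (hA : A ⊆ R.inc Q) (hx : ∀ p ∈ R.Ev0 ∩ A, kpr1X R Q p ∈ E') (hpos : 0 < R.lam0 A)
    (hheavy : ENNReal.ofReal (R.q Q) * R.νQ Q ≤ ENNReal.ofReal Kx * R.lam0 A) : ENNReal.ofReal (1 / (K * Kx)) ≤ volume E' := by
  have hK : 0 < K := lt_of_lt_of_le one_pos hL.K_ge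
  have hKx0 : 0 < Kx := lt_of_lt_of_le one_pos hKx
  have h1 : R.lam0 A ≤ R.lam0 (R.inc Q ∩ {p | kpr1X R Q p ∈ E'}) := by
    rw [kpr1r_lam0_apply hL, kpr1r_lam0_apply hL]
    refine measure_mono ?_
    rintro p ⟨hpA, hpE⟩
    exact ⟨⟨hA hpA, hx p ⟨hpE, hpA⟩⟩, hpE⟩
  have h2 := h1.trans (kpr1_cap hL Q E' hE')
  set m := ENNReal.ofReal (R.q Q) * R.νQ Q with hm
  have hm0 : m ≠ 0 := by
    intro h0
    rw [h0, mul_zero, zero_mul] at h2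
    exact absurd hpos (not_lt.2 h2)
  have hmt : m ≠ ⊤ := by
    have := hL.prob
    exact ENNReal.mul_ne_top ENNReal.ofReal_ne_top (measure_ne_top _ _)
  have h3 : m * 1 ≤ m * (ENNReal.ofReal (K * Kx) * volume E') := by
    rw [mul_one]
    calc m ≤ ENNReal.ofReal Kx * R.lam0 A := hheavy
      _ ≤ ENNReal.ofReal Kx * (ENNReal.ofReal K * m * volume E') := mul_le_mul_right h2 _
      _ = m * (ENNReal.ofReal (K * Kx) * volume E') := by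
          rw [ENNReal.ofReal_mul hK.le]
          ring
  have h4 := (ENNReal.mul_le_mul_iff_right hm0 hmt).1 h3
  have hpos' : 0 < K * Kx := mul_pos hK hKx0
  rw [one_div, ENNReal.ofReal_inv_of_pos hpos']
  rw [ENNReal.inv_le_iff_le_mul (fun _ => by simp [hpos']) (fun h => absurd h ENNReal.ofReal_ne_top)]
  exact h4

/-- **L-252-KPR1-R3e** (15 l.)  `Measure.restrict_apply' hL.m_Ev0`, `Set.nonempty_of_measure_ne_zero`-type argument. -/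
theorem kpr1_occ {R : KsRef v} {K : ℝ} (hL : R.OkLab K) (A : Set (R.L × ℝ)) (hpos : 0 < R.lam0 A) : ∃ p, p ∈ R.Ev0 ∩ A := by
  rw [kpr1r_lam0_apply hL] at hpos
  obtain ⟨p, hp⟩ := nonempty_of_measure_ne_zero hpos.ne'
  exact ⟨p, hp.2, hp.1⟩

/-! ## R4 : measurability -/

/-- **L-252-KPR1-R4a** (50 l.)  `R.base p = (p.2, co.1 + p.2 • co.2.1)`, `hL.m_co`. -/
theorem kpr1_meas_base {R : KsRef v} {K : ℝ} (hL : R.OkLab K) : Measurable R.base := by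
  have h1 : Measurable fun p : R.L × ℝ => R.co p.1 := hL.m_co.comp measurable_fst
  unfold KsRef.base kbY
  refine measurable_snd.prodMk ?_
  exact h1.fst.add (measurable_snd.smul h1.snd.fst)

/-- a quadratic is continuous in `(t, y, w)` -/
theorem kpr1r_quad_cont (q : KbQuad v) : Continuous fun x : ℝ × KbB v × ℝ => q.ev x.1 x.2.1 x.2.2 := by
  unfold KbQuad.ev
  have h1 : ∀ c : KbB v, Continuous fun x : ℝ × KbB v × ℝ => c ⬝ᵥ x.2.1 := fun c =>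
    Continuous.dotProduct continuous_const (by fun_prop)
  have h2 : Continuous fun x : ℝ × KbB v × ℝ => x.2.1 ⬝ᵥ q.cyy.mulVec x.2.1 :=
    Continuous.dotProduct (by fun_prop) (Continuous.matrix_mulVec continuous_const (by fun_prop))
  have h3 := h1 q.cy
  have h4 := h1 q.cty
  have h5 := h1 q.cyw
  fun_prop

/-- **L-252-KPR1-R4b** (60 l.)  a quadratic test along the trajectories is measurable: `obtain ⟨q, hq⟩`, `KbQuad.ev` is a polynomial expression in the measurable functions `p.2`, `kbY (co p.1) p.2 i`, `kbW (co p.1) p.2` (finite sums; `Finset.measurable_sum`, `measurable_pi_iff`);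
`kbDw T` is a difference of two such. -/
theorem kpr1_meas_ev {R : KsRef v} {K : ℝ} (hL : R.OkLab K) {T : KbTest v} (hT : KbIsQuad T) : Measurable fun p : R.L × ℝ => R.ev (kbDw T) p.1 p.2 := by
  obtain ⟨q, hq⟩ := hT
  have h1 : Measurable fun p : R.L × ℝ => R.co p.1 := hL.m_co.comp measurable_fst
  have hy : Measurable fun p : R.L × ℝ => kbY (R.co p.1) p.2 := by
    unfold kbY
    exact h1.fst.add (measurable_snd.smul h1.snd.fst)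
  have hw : Measurable fun p : R.L × ℝ => kbW (R.co p.1) p.2 := by
    unfold kbW
    refine Finset.measurable_sum _ fun i _ => ?_
    exact ((measurable_pi_apply i).comp h1.snd.snd).mul (measurable_snd.pow_const _)
  have hc := (kpr1r_quad_cont q).measurable
  have hA : Measurable fun p : R.L × ℝ => ((p.2, kbY (R.co p.1) p.2, kbW (R.co p.1) p.2 + 1) : ℝ × KbB v × ℝ) :=
    measurable_snd.prodMk (hy.prodMk (hw.add_const 1))
  have hB : Measurable fun p : R.L × ℝ => ((p.2, kbY (R.co p.1) p.2, kbW (R.co p.1) p.2 - 1) : ℝ × KbB v × ℝ) :=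
    measurable_snd.prodMk (hy.prodMk (hw.sub_const 1))
  have ha := hc.comp hA
  have hb := hc.comp hB
  have e : (fun p : R.L × ℝ => R.ev (kbDw T) p.1 p.2)
      = fun p : R.L × ℝ => (((fun x : ℝ × KbB v × ℝ => q.ev x.1 x.2.1 x.2.2) ∘ fun p : R.L × ℝ => ((p.2, kbY (R.co p.1) p.2, kbW (R.co p.1) p.2 + 1) : ℝ × KbB v × ℝ)) p
        - ((fun x : ℝ × KbB v × ℝ => q.ev x.1 x.2.1 x.2.2) ∘ fun p : R.L × ℝ => ((p.2, kbY (R.co p.1) p.2, kbW (R.co p.1) p.2 - 1) : ℝ × KbB v × ℝ)) p) / 2 := by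
    funext p
    show (T p.2 (kbY (R.co p.1) p.2) (kbW (R.co p.1) p.2 + 1) - T p.2 (kbY (R.co p.1) p.2) (kbW (R.co p.1) p.2 - 1)) / 2 = _
    rw [hq, hq]
    rfl
  rw [e]
  exact (ha.sub hb).div_const 2

/-- **L-252-KPR1-R4c** (40 l.)  `MvPolynomial.measurable_eval`-type facts (`(MvPolynomial.continuous_eval _).measurable`), `Real.measurable_sqrt`/`continuous_sqrt`, `Measurable.div`, `Measurable.ite` (the condition does not depend on `x`: `split_ifs`). -/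
theorem kpr1_meas_gr {n : ℕ} (P : Kpr1Q n) (k : KsKind) : Measurable (P.gr k) := by
  have h1 : ∀ p : MvPolynomial (Fin n) ℝ, Measurable fun x : Fin n → ℝ => eval x p := fun p => (MvPolynomial.continuous_eval p).measurable
  unfold Kpr1Q.gr
  split_ifs
  · exact (h1 P.ga).neg.div (h1 P.be)
  · exact (((h1 P.disc).sqrt.const_mul _).sub (h1 P.be)).div_const _

/-- **L-252-KPR1-R4d** (60 l.)  `{z | Phi = c}` is `∅` unless `Q = c.1` and the kind is `c.2.2`; then it is `{z | ∀ i, ⌊x_i / (2ρ)⌋ = c.2.1 i}` : `MeasurableSet.iInter`, `Int.measurable_floor`, `kpr1_meas_unit`. -/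
theorem kpr1_meas_phi (R : KsRef v) (ρ H : ℝ) (Q : R.Lab) (σ : Bool) (c : Kpr1C R) : MeasurableSet {z | kpr1Phi R ρ H Q z σ = c} := by
  have e : {z | kpr1Phi R ρ H Q z σ = c}
      = {_z : ℝ × KbB v | Q = c.1 ∧ kpr1K (kpr1Tf R Q).al (R.a (R.dep Q)) H σ = c.2.2} ∩ ⋂ i, {z | ⌊kpr1E (R.unit Q z) i / (2 * ρ)⌋ = c.2.1 i} := by
    ext z
    obtain ⟨c1, c2, c3⟩ := c
    simp only [kpr1Phi, Set.mem_ofPred_eq, Prod.mk.injEq, Set.mem_inter_iff, Set.mem_iInter, kpr1Idx, funext_iff]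
    tauto
  rw [e]
  refine (MeasurableSet.const _).inter (MeasurableSet.iInter fun i => ?_)
  have hm : Measurable fun z : ℝ × KbB v => ⌊kpr1E (R.unit Q z) i / (2 * ρ)⌋ :=
    (((measurable_pi_apply i).comp (kpr1_meas_unit R Q)).div_const _).floor
  exact hm (measurableSet_singleton _)

/-- **L-252-KPR1-R4e** (80 l.)  `inc Q = asg Q ×ˢ blk Q` measurable (`hL.m_asg`, `measurableSet_Ico`);  split by the value of `kpr1Sg R c.1 p` (`{p | 0 < ev ..}` measurable by `kpr1_meas_ev`, `hL.tst_adm`): on each part the set is the preimage under `R.base` of `kpr1_meas_phi`. -/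
theorem kpr1_meas_on {R : KsRef v} {K : ℝ} (hL : R.OkLab K) (ρ H : ℝ) (c : Kpr1C R) : MeasurableSet (kpr1On R ρ H c) := by
  have hinc : MeasurableSet (R.inc c.1) := (hL.m_asg c.1).prod measurableSet_Ico
  have hpos : MeasurableSet {p : R.L × ℝ | 0 < R.ev (kbDw (R.tst c.1)) p.1 p.2} :=
    measurableSet_lt measurable_const (kpr1_meas_ev hL (hL.tst_adm c.1).1)
  have hb := kpr1_meas_base hL
  have e : {p | kpr1Phi R ρ H c.1 (R.base p) (kpr1Sg R c.1 p) = c}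
      = ({p : R.L × ℝ | 0 < R.ev (kbDw (R.tst c.1)) p.1 p.2} ∩ R.base ⁻¹' {z | kpr1Phi R ρ H c.1 z true = c})
        ∪ ({p : R.L × ℝ | 0 < R.ev (kbDw (R.tst c.1)) p.1 p.2}ᶜ ∩ R.base ⁻¹' {z | kpr1Phi R ρ H c.1 z false = c}) := by
    ext p
    by_cases h : 0 < R.ev (kbDw (R.tst c.1)) p.1 p.2
    · have hs : kpr1Sg R c.1 p = true := decide_eq_true h
      simp [hs, h]
    · have hs : kpr1Sg R c.1 p = false := decide_eq_false h
      simp [hs, h]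
  unfold kpr1On
  rw [e]
  exact hinc.inter ((hpos.inter (hb (kpr1_meas_phi R ρ H c.1 true c))).union (hpos.compl.inter (hb (kpr1_meas_phi R ρ H c.1 false c))))

/-- **L-252-KPR1-R4f** (30 l.)  finite intersections and unions (`Finset.measurableSet_biInter`, `biUnion`) of `kpr1_meas_on`. -/
theorem kpr1_meas_F {R : KsRef v} {K : ℝ} (hL : R.OkLab K) (ρ H K₁ K₂ : ℝ) (M₀ : ℕ) : MeasurableSet (kpr1F R ρ H K₁ K₂ M₀) := by
  have e : kpr1F R ρ H K₁ K₂ M₀ = ⋂ s ∈ R.depths, ⋃ c ∈ kpr1S R ρ H K₁ K₂ M₀, ({_p : R.L × ℝ | R.dep c.1 = s} ∩ kpr1On R ρ H c) := by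
    ext p
    simp only [kpr1F, Set.mem_ofPred_eq, Set.mem_iInter, Set.mem_iUnion, Set.mem_inter_iff, exists_prop]
  rw [e]
  exact Finset.measurableSet_biInter _ fun s _ => Finset.measurableSet_biUnion _ fun c _ => (MeasurableSet.const _).inter (kpr1_meas_on hL ρ H c)

/-! ## R5 : uniqueness, selector, factor map -/

/-- **L-252-KPR1-R5a** (30 l.)  both labels are true labels of `p` at the same depth: `kpr_lab_unique hL`; then `c = Phi .. = c'`. -/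
theorem kpr1_on_unique {R : KsRef v} {K : ℝ} (hL : R.OkLab K) {ρ H : ℝ} {c c' : Kpr1C R} (hd : R.dep c.1 = R.dep c'.1) {p : R.L × ℝ}
    (hp : p ∈ kpr1On R ρ H c) (hp' : p ∈ kpr1On R ρ H c') : c = c' := by
  have h1 : c.1 = c'.1 := kpr_lab_unique hL (s := R.dep c.1) (p := p) ⟨rfl, hp.1⟩ ⟨hd.symm, hp'.1⟩
  have h2 : kpr1Phi R ρ H c.1 (R.base p) (kpr1Sg R c.1 p) = c := hp.2
  have h3 : kpr1Phi R ρ H c'.1 (R.base p) (kpr1Sg R c'.1 p) = c' := hp'.2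
  rw [← h2, ← h3, h1]

/-- **L-252-KPR1-R5b** (30 l.)  `dif_pos`, `Classical.choose_spec`, `kpr1_on_unique`, `Subtype.ext`. -/
theorem kpr1_sel_spec {R : KsRef v} {K : ℝ} (hL : R.OkLab K) {ρ H : ℝ} (S : Finset (Kpr1C R)) (e₀ e : {c // c ∈ S}) {s : ℝ} {p : R.L × ℝ}
    (hs : R.dep e.1.1 = s) (hp : p ∈ kpr1On R ρ H e.1) : kpr1Sel R ρ H S e₀ s p = e := by
  have h : ∃ e : {c // c ∈ S}, R.dep e.1.1 = s ∧ p ∈ kpr1On R ρ H e.1 := ⟨e, hs, hp⟩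
  unfold kpr1Sel
  rw [dif_pos h]
  exact Subtype.ext (kpr1_on_unique hL (h.choose_spec.1.trans hs.symm) h.choose_spec.2 hp)

/-- **L-252-KPR1-R5c** (80 l.)  `U e := if dep e = s then On e else ∅` (measurable).  `{Sel = e} = U e ∪ (if e = e₀ then (⋃ e', U e')ᶜ else ∅)` by `kpr1_sel_spec` and `dif_neg`. -/
theorem kpr1_sel_lab {R : KsRef v} {K : ℝ} (hL : R.OkLab K) (ρ H : ℝ) (S : Finset (Kpr1C R)) (e₀ : {c // c ∈ S}) (s : ℝ) : KsLab (kpr1Sel R ρ H S e₀ s) := by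
  classical
  intro e
  obtain ⟨U, hU⟩ : ∃ U : {c // c ∈ S} → Set (R.L × ℝ), U = fun e => {_p : R.L × ℝ | R.dep e.1.1 = s} ∩ kpr1On R ρ H e.1 := ⟨_, rfl⟩
  have mU : ∀ e, MeasurableSet (U e) := fun e => by
    rw [hU]
    exact (MeasurableSet.const _).inter (kpr1_meas_on hL ρ H e.1)
  have e1 : kpr1Sel R ρ H S e₀ s ⁻¹' {e} = U e ∪ ({_p : R.L × ℝ | e = e₀} ∩ (⋃ e', U e')ᶜ) := by
    ext p
    simp only [Set.mem_preimage, Set.mem_singleton_iff, Set.mem_union, Set.mem_inter_iff, Set.mem_compl_iff, Set.mem_iUnion, Set.mem_ofPred_eq]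
    by_cases h : ∃ e' : {c // c ∈ S}, R.dep e'.1.1 = s ∧ p ∈ kpr1On R ρ H e'.1
    · obtain ⟨e', h1, h2⟩ := h
      have h3 := kpr1_sel_spec hL S e₀ e' h1 h2
      have h4 : ∃ i, p ∈ U i := ⟨e', by rw [hU]; exact ⟨h1, h2⟩⟩
      rw [h3]
      constructor
      · rintro rfl
        left
        rw [hU]
        exact ⟨h1, h2⟩
      · rintro (h5 | h5)
        · rw [hU] at h5
          exact Subtype.ext (kpr1_on_unique hL (h1.trans h5.1.symm) h2 h5.2)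
        · exact absurd h4 h5.2
    · have h3 : kpr1Sel R ρ H S e₀ s p = e₀ := by
        unfold kpr1Sel
        rw [dif_neg h]
      have h4 : ¬ ∃ i, p ∈ U i := by
        rintro ⟨i, hi⟩
        rw [hU] at hi
        exact h ⟨i, hi.1, hi.2⟩
      rw [h3]
      constructor
      · intro h5
        exact Or.inr ⟨h5.symm, h4⟩
      · rintro (h5 | h5)
        · exact absurd ⟨e, h5⟩ h4
        · exact h5.1.symm
  rw [e1]
  exact (mU e).union ((MeasurableSet.const _).inter (MeasurableSet.iUnion mU).compl)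

/-- **L-252-KPR1-R5d** (60 l.)  `{z | Fac = e} = {z | Phi = e.1} ∪ (if e = e₀ then {z | Phi ∉ S} else ∅)`; `{z | Phi ∈ S} = ⋃ c ∈ S, {z | Phi = c}` ; `kpr1_meas_phi`. -/
theorem kpr1_fac_meas (R : KsRef v) (ρ H : ℝ) (S : Finset (Kpr1C R)) (e₀ : {c // c ∈ S}) (Q : R.Lab) (σ : Bool) (e : {c // c ∈ S}) :
    MeasurableSet {z | kpr1Fac R ρ H S e₀ Q z σ = e} := by
  classical
  have mS : MeasurableSet {z | kpr1Phi R ρ H Q z σ ∈ S} := by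
    have : {z | kpr1Phi R ρ H Q z σ ∈ S} = ⋃ c ∈ S, {z | kpr1Phi R ρ H Q z σ = c} := by
      ext z
      simp
    rw [this]
    exact Finset.measurableSet_biUnion _ fun c _ => kpr1_meas_phi R ρ H Q σ c
  have e1 : {z | kpr1Fac R ρ H S e₀ Q z σ = e} = {z | kpr1Phi R ρ H Q z σ = e.1} ∪ ({_z : ℝ × KbB v | e = e₀} ∩ {z | kpr1Phi R ρ H Q z σ ∈ S}ᶜ) := by
    ext z
    simp only [Set.mem_union, Set.mem_inter_iff, Set.mem_compl_iff, Set.mem_ofPred_eq]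
    by_cases h : kpr1Phi R ρ H Q z σ ∈ S
    · have h3 : kpr1Fac R ρ H S e₀ Q z σ = ⟨_, h⟩ := by
        unfold kpr1Fac
        rw [dif_pos h]
      rw [h3]
      constructor
      · intro h5
        exact Or.inl (congrArg Subtype.val h5)
      · rintro (h5 | h5)
        · exact Subtype.ext h5
        · exact absurd h h5.2
    · have h3 : kpr1Fac R ρ H S e₀ Q z σ = e₀ := by
        unfold kpr1Fac
        rw [dif_neg h]
      rw [h3]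
      constructor
      · intro h5
        exact Or.inr ⟨h5.symm, h⟩
      · rintro (h5 | h5)
        · exact absurd (h5 ▸ e.2) h
        · exact h5.1.symm
  rw [e1]
  exact (kpr1_meas_phi R ρ H Q σ e.1).union ((MeasurableSet.const _).inter mS.compl)

/-! ## R6 : the grid -/

/-- **L-252-KPR1-R6a** (40 l.)  `m = ⌊x/(2ρ)⌋` : `2ρ m ≤ x < 2ρ (m + 1)` (`Int.floor_le`, `Int.lt_floor_add_one`, `div_le_iff₀`), so `|x - (2m+1) ρ| ≤ ρ`; `pi_norm_le_iff_of_nonneg`. -/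
theorem kpr1_idx_ctr {n : ℕ} {ρ : ℝ} (hρ : 0 < ρ) (x : Fin n → ℝ) : ‖x - kpr1Ctr ρ (kpr1Idx ρ x)‖ ≤ ρ := by
  refine (pi_norm_le_iff_of_nonneg hρ.le).2 fun i => ?_
  have h2 : (0 : ℝ) < 2 * ρ := by linarith
  have h1 := Int.floor_le (x i / (2 * ρ))
  have h3 := Int.lt_floor_add_one (x i / (2 * ρ))
  rw [le_div_iff₀ h2] at h1
  rw [div_lt_iff₀ h2] at h3
  show ‖x i - (2 * ((⌊x i / (2 * ρ)⌋ : ℤ) : ℝ) + 1) * ρ‖ ≤ ρ
  rw [Real.norm_eq_abs, abs_le]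
  constructor <;> linarith

/-- **L-252-KPR1-R6b** (50 l.)  `|x i| ≤ ‖x‖ ≤ K ≤ 2ρ M₀` gives `-M₀ ≤ x i/(2ρ) ≤ M₀`, `Int.le_floor`, `Int.floor_le`; `Fintype.mem_piFinset`, `Finset.mem_Icc`. -/
theorem kpr1_idx_mem {n : ℕ} {ρ K : ℝ} {M₀ : ℕ} (hρ : 0 < ρ) (hM : K ≤ 2 * ρ * M₀) (x : Fin n → ℝ) (hx : ‖x‖ ≤ K) :
    kpr1Idx ρ x ∈ Fintype.piFinset fun _ : Fin n => Finset.Icc (-(M₀ : ℤ)) (M₀ : ℤ) := by
  rw [Fintype.mem_piFinset]
  intro i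
  have h2 : (0 : ℝ) < 2 * ρ := by linarith
  have hxi : |x i| ≤ 2 * ρ * M₀ := ((norm_le_pi_norm x i).trans hx).trans hM
  rw [abs_le] at hxi
  rw [Finset.mem_Icc]
  constructor
  · apply Int.le_floor.2
    rw [le_div_iff₀ h2]
    push_cast
    linarith [hxi.1]
  · have h : ((⌊x i / (2 * ρ)⌋ : ℤ) : ℝ) ≤ ((M₀ : ℤ) : ℝ) := (Int.floor_le _).trans (by
      rw [div_le_iff₀ h2]
      push_cast
      linarith [hxi.2])
    exact_mod_cast h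

/-- **L-252-KPR1-R6c** (60 l.)  the map `e ↦ e.1.2` is injective on the set, with values in `piFinset .. ×ˢ kpr1Kinds`, of cardinality `(2M₀+1)^n * 3` (`Fintype.card_piFinset`, `Int.card_Icc`, `Finset.card_product`); `Set.ncard_le_ncard`/`Set.ncard_image_of_injOn`/`Set.ncard_coe_finset`. -/
theorem kpr1_card (R : KsRef v) (M₀ : ℕ) (S : Finset (Kpr1C R)) (hS : S ⊆ kpr1All R M₀) (Q : R.Lab) :
    (Set.ncard {e : {c // c ∈ S} | e.1.1 = Q} : ℝ) ≤ 3 * (2 * (M₀ : ℝ) + 1) ^ (v.j + 1) := by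
  obtain ⟨T, hT⟩ : ∃ T : Finset ((Fin (v.j + 1) → ℤ) × KsKind), T = (Fintype.piFinset fun _ => Finset.Icc (-(M₀ : ℤ)) (M₀ : ℤ)) ×ˢ kpr1Kinds := ⟨_, rfl⟩
  have hinj : Set.InjOn (fun e : {c // c ∈ S} => e.1.2) {e | e.1.1 = Q} := by
    intro e he e' he' h
    apply Subtype.ext
    exact Prod.ext (he.trans he'.symm) h
  have hsub : (fun e : {c // c ∈ S} => e.1.2) '' {e | e.1.1 = Q} ⊆ (T : Set _) := by
    rintro _ ⟨e, -, rfl⟩
    have := hS e.2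
    rw [kpr1All, Finset.mem_product] at this
    rw [hT]
    exact Finset.mem_coe.2 this.2
  have h1 : Set.ncard {e : {c // c ∈ S} | e.1.1 = Q} ≤ T.card := by
    rw [← hinj.ncard_image, ← Set.ncard_coe_finset T]
    exact Set.ncard_le_ncard hsub (Finset.finite_toSet T)
  have h2 : T.card = (2 * M₀ + 1) ^ (v.j + 1) * 3 := by
    rw [hT, Finset.card_product, Fintype.card_piFinset]
    have hk : kpr1Kinds.card = 3 := by decide
    have hi : (Finset.Icc (-(M₀ : ℤ)) (M₀ : ℤ)).card = 2 * M₀ + 1 := by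
      rw [Int.card_Icc]
      omega
    rw [hk]
    simp only [hi, Finset.prod_const, Finset.card_univ, Fintype.card_fin]
  have h3 : ((Set.ncard {e : {c // c ∈ S} | e.1.1 = Q} : ℕ) : ℝ) ≤ (((2 * M₀ + 1) ^ (v.j + 1) * 3 : ℕ) : ℝ) := by
    exact_mod_cast h2 ▸ h1
  refine h3.trans (le_of_eq ?_)
  push_cast
  ring

/-! ## R7 : the loss -/

/-- **L-252-KPR1-R7a** (60 l.)  every retained incidence carries a candidate of the box at every required depth: `Q` from `hL.lab_ex`, `c := Phi Q (base p) (Sg Q p)`; `kpr1_pt` (`x_bd`), `kpr1_idx_mem`; the kind is in `kpr1Kinds` (`cases`). -/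
theorem kpr1_cand_ex {R : KsRef v} {K : ℝ} (hL : R.OkLab K) {ρ : ℝ} (H : ℝ) {M₀ : ℕ} (hρ : 0 < ρ) (hM : K ≤ 2 * ρ * M₀) {s : ℝ} (hs : s ∈ R.depths) {p : R.L × ℝ} (hp : p ∈ R.Ev0) :
    ∃ c ∈ kpr1All R M₀, R.dep c.1 = s ∧ p ∈ kpr1On R ρ H c := by
  obtain ⟨Q, hQs, hQp⟩ := hL.lab_ex s hs p hp
  refine ⟨kpr1Phi R ρ H Q (R.base p) (kpr1Sg R Q p), ?_, hQs, hQp, rfl⟩
  have hx : ‖kpr1X R Q p‖ ≤ K := (kpr1_pt hL Q p ⟨hp, hQp⟩).1.x_bd
  have hi := kpr1_idx_mem hρ hM (kpr1X R Q p) hx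
  unfold kpr1All kpr1Phi
  refine Finset.mem_product.2 ⟨Finset.mem_univ _, Finset.mem_product.2 ⟨hi, ?_⟩⟩
  show kpr1K (kpr1Tf R Q).al (R.a (R.dep Q)) H (kpr1Sg R Q p) ∈ kpr1Kinds
  unfold kpr1Kinds
  cases kpr1K (kpr1Tf R Q).al (R.a (R.dep Q)) H (kpr1Sg R Q p) <;> simp

/-- **L-252-KPR1-R7b** (120 l.)  the candidates of ONE label are disjoint measurable parts of `inc Q` (`kpr1_on_unique`, `kpr1_meas_on`): `measure_biUnion_finset`, `measure_mono`. -/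
theorem kpr1_sum_on {R : KsRef v} {K : ℝ} (hL : R.OkLab K) (ρ H : ℝ) (Q : R.Lab) (B : Finset ((Fin (v.j + 1) → ℤ) × KsKind)) :
    ∑ b ∈ B, R.lam0 (kpr1On R ρ H (Q, b)) ≤ R.lam0 (R.inc Q) := by
  rw [← measure_biUnion_finset (fun b _ b' _ hne => Set.disjoint_left.2 fun p hp hp' =>
    hne (Prod.ext_iff.1 (kpr1_on_unique hL (c := (Q, b)) (c' := (Q, b')) rfl hp hp')).2)
    (fun b _ => kpr1_meas_on hL ρ H (Q, b))]
  exact measure_mono (Set.iUnion₂_subset fun b _ p hp => hp.1)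

/-- the number of cells and kinds -/
theorem kpr1r_card_box (n M₀ : ℕ) :
    ((((Fintype.piFinset fun _ : Fin n => Finset.Icc (-(M₀ : ℤ)) (M₀ : ℤ)) ×ˢ kpr1Kinds).card : ℕ) : ℝ)
      = 3 * (2 * (M₀ : ℝ) + 1) ^ n := by
  have h3 : kpr1Kinds.card = 3 := by decide
  have hI : (Finset.Icc (-(M₀ : ℤ)) (M₀ : ℤ)).card = 2 * M₀ + 1 := by
    rw [Int.card_Icc]; omega
  rw [Finset.card_product, Fintype.card_piFinset, h3]
  simp only [hI, Finset.prod_const, Finset.card_univ, Fintype.card_fin]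
  push_cast
  ring

/-- `lam0` only sees `Ev0` -/
theorem kpr1r_lam0_mono {R : KsRef v} {K : ℝ} (hL : R.OkLab K) {A B : Set (R.L × ℝ)} (h : ∀ p ∈ R.Ev0, p ∈ A → p ∈ B) :
    R.lam0 A ≤ R.lam0 B := by
  show (R.prior.restrict R.Ev0) A ≤ (R.prior.restrict R.Ev0) B
  rw [Measure.restrict_apply' hL.m_Ev0, Measure.restrict_apply' hL.m_Ev0]
  exact measure_mono fun p hp => ⟨h p hp.2 hp.1, hp.2⟩

open Classical in
/-- ONE label: the candidates which are not heavy carry `≤ 2 q ν / K₁` -/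
theorem kpr1r_loss_label {R : KsRef v} {K : ℝ} (hL : R.OkLab K) {ρ H K₁ K₂ : ℝ} {M₀ : ℕ} (hK₁ : 1 ≤ K₁)
    (hK₂ : 3 * (2 * (M₀ : ℝ) + 1) ^ (v.j + 1) * K₁ ≤ K₂) (Q : R.Lab) :
    ENNReal.ofReal K₁ * ∑ b ∈ ((Fintype.piFinset fun _ : Fin (v.j + 1) => Finset.Icc (-(M₀ : ℤ)) (M₀ : ℤ)) ×ˢ kpr1Kinds).filter
        (fun b => ¬ Kpr1Heavy R ρ H K₁ K₂ (Q, b)), R.lam0 (kpr1On R ρ H (Q, b))
      ≤ 2 * (ENNReal.ofReal (R.q Q) * R.νQ Q) := by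
  obtain ⟨Bx, hBx⟩ : ∃ Bx, Bx = (Fintype.piFinset fun _ : Fin (v.j + 1) => Finset.Icc (-(M₀ : ℤ)) (M₀ : ℤ)) ×ˢ kpr1Kinds := ⟨_, rfl⟩
  have hcard : ((Bx.card : ℕ) : ℝ) = 3 * (2 * (M₀ : ℝ) + 1) ^ (v.j + 1) := by rw [hBx]; exact kpr1r_card_box _ _
  rw [← hBx]
  obtain ⟨m, hm⟩ : ∃ m, m = ENNReal.ofReal (R.q Q) * R.νQ Q := ⟨_, rfl⟩
  rw [← hm]
  have hm2 : m ≤ 2 * m := by
    rw [two_mul]; exact le_self_add
  by_cases hlab : m ≤ ENNReal.ofReal K₁ * R.lam0 (R.inc Q)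
  · -- the label is not light: every candidate which is not heavy is a light entry
    have hK₂0 : 0 < K₂ := lt_of_lt_of_le (by positivity) hK₂
    have hterm : ∀ b ∈ Bx.filter (fun b => ¬ Kpr1Heavy R ρ H K₁ K₂ (Q, b)),
        ENNReal.ofReal K₁ * R.lam0 (kpr1On R ρ H (Q, b)) ≤ ENNReal.ofReal (K₁ / K₂) * m := by
      intro b hb
      have hnh := (Finset.mem_filter.1 hb).2
      have h2 : ENNReal.ofReal K₂ * R.lam0 (kpr1On R ρ H (Q, b)) ≤ m := by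
        by_contra hcon
        have hlt := not_le.1 hcon
        refine hnh ⟨?_, by rw [← hm]; exact hlab, by rw [← hm]; exact hlt.le⟩
        rcases eq_or_ne (R.lam0 (kpr1On R ρ H (Q, b))) 0 with h0 | h0
        · rw [h0, mul_zero] at hlt
          exact absurd hlt (not_lt.2 zero_le)
        · exact pos_iff_ne_zero.2 h0
      calc ENNReal.ofReal K₁ * R.lam0 (kpr1On R ρ H (Q, b))
          = ENNReal.ofReal (K₁ / K₂) * (ENNReal.ofReal K₂ * R.lam0 (kpr1On R ρ H (Q, b))) := by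
            rw [← mul_assoc, ← ENNReal.ofReal_mul (by positivity), div_mul_cancel₀ _ hK₂0.ne']
        _ ≤ ENNReal.ofReal (K₁ / K₂) * m := mul_le_mul_right h2 _
    refine le_trans ?_ hm2
    rw [Finset.mul_sum]
    calc ∑ b ∈ Bx.filter (fun b => ¬ Kpr1Heavy R ρ H K₁ K₂ (Q, b)), ENNReal.ofReal K₁ * R.lam0 (kpr1On R ρ H (Q, b))
        ≤ ∑ _b ∈ Bx.filter (fun b => ¬ Kpr1Heavy R ρ H K₁ K₂ (Q, b)), ENNReal.ofReal (K₁ / K₂) * m :=
          Finset.sum_le_sum hterm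
      _ ≤ ∑ _b ∈ Bx, ENNReal.ofReal (K₁ / K₂) * m :=
          Finset.sum_le_sum_of_subset (Finset.filter_subset _ _)
      _ = ENNReal.ofReal ((Bx.card : ℕ) * (K₁ / K₂)) * m := by
          rw [Finset.sum_const, nsmul_eq_mul, ← mul_assoc, ENNReal.ofReal_mul (Nat.cast_nonneg _),
            ENNReal.ofReal_natCast]
      _ ≤ 1 * m := by
          refine mul_le_mul_left ?_ _
          rw [← ENNReal.ofReal_one]
          refine ENNReal.ofReal_le_ofReal ?_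
          rw [hcard, ← mul_div_assoc, div_le_one hK₂0]
          exact hK₂
      _ = m := one_mul _
  · -- the label is light
    refine le_trans ?_ hm2
    calc ENNReal.ofReal K₁ * ∑ b ∈ Bx.filter (fun b => ¬ Kpr1Heavy R ρ H K₁ K₂ (Q, b)), R.lam0 (kpr1On R ρ H (Q, b))
        ≤ ENNReal.ofReal K₁ * R.lam0 (R.inc Q) := mul_le_mul_right (kpr1_sum_on hL ρ H Q _) _
      _ ≤ m := (not_le.1 hlab).le

open Classical in
/-- **L-252-KPR1-R7c** (250 l.)  ONE depth.   The set is covered by the `On c`, `c ∈ All \ S`, `dep c.1 = s` (`kpr1_cand_ex`; outside `Ev0` nothing counts: `lam0 = prior.restrict Ev0`, `Measure.restrict_apply' hL.m_Ev0`).  `c ∉ S` means `¬ Heavy c` : (1) `lam0 (On c) = 0`, or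
(2) the label is light: `K₁ lam0 (inc c.1) < q ν`, or (3) the entry is light: `K₂ lam0 (On c) < q ν`.   Sum over `Q` with `dep Q = s` and `b ∈ piFinset ×ˢ kinds` (`Finset.sum_product`):
light labels: `K₁ ∑_b lam0 (On (Q, b)) ≤ K₁ lam0 (inc Q) ≤ q ν` (`kpr1_sum_on`);  light entries: `K₁ lam0 (On c) ≤ (K₁ / K₂) q ν`, and there are `≤ 3 (2M₀+1)^n` of them, `hK₂`.  Total `≤ 2 ∑_Q q ν ≤ 2` (`kpr_budget_depth hL s`). -/
theorem kpr1_loss_depth {R : KsRef v} {K : ℝ} (hL : R.OkLab K) {ρ H K₁ K₂ : ℝ} {M₀ : ℕ} (hρ : 0 < ρ) (hM : K ≤ 2 * ρ * M₀) (hK₁ : 1 ≤ K₁)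
    (hK₂ : 3 * (2 * (M₀ : ℝ) + 1) ^ (v.j + 1) * K₁ ≤ K₂) {s : ℝ} (hs : s ∈ R.depths) :
    ENNReal.ofReal K₁ * R.lam0 {p | ¬ ∃ c ∈ kpr1S R ρ H K₁ K₂ M₀, R.dep c.1 = s ∧ p ∈ kpr1On R ρ H c} ≤ 2 := by
  have hcov : R.lam0 {p | ¬ ∃ c ∈ kpr1S R ρ H K₁ K₂ M₀, R.dep c.1 = s ∧ p ∈ kpr1On R ρ H c}
      ≤ R.lam0 (⋃ Q ∈ Finset.univ.filter (fun Q => R.dep Q = s),
        ⋃ b ∈ ((Fintype.piFinset fun _ : Fin (v.j + 1) => Finset.Icc (-(M₀ : ℤ)) (M₀ : ℤ)) ×ˢ kpr1Kinds).filter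
          (fun b => ¬ Kpr1Heavy R ρ H K₁ K₂ (Q, b)), kpr1On R ρ H (Q, b)) := by
    refine kpr1r_lam0_mono hL fun p hp hbad => ?_
    obtain ⟨⟨Q, b⟩, hc, hdep, hon⟩ := kpr1_cand_ex hL H hρ hM hs hp
    have hb : b ∈ (Fintype.piFinset fun _ : Fin (v.j + 1) => Finset.Icc (-(M₀ : ℤ)) (M₀ : ℤ)) ×ˢ kpr1Kinds :=
      (Finset.mem_product.1 hc).2
    refine Set.mem_iUnion₂.2 ⟨Q, Finset.mem_filter.2 ⟨Finset.mem_univ _, hdep⟩,
      Set.mem_iUnion₂.2 ⟨b, Finset.mem_filter.2 ⟨hb, fun hheavy => hbad ⟨(Q, b), ?_, hdep, hon⟩⟩, hon⟩⟩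
    exact Finset.mem_filter.2 ⟨hc, hheavy⟩
  calc ENNReal.ofReal K₁ * R.lam0 {p | ¬ ∃ c ∈ kpr1S R ρ H K₁ K₂ M₀, R.dep c.1 = s ∧ p ∈ kpr1On R ρ H c}
      ≤ ENNReal.ofReal K₁ * ∑ Q ∈ Finset.univ.filter (fun Q => R.dep Q = s),
          ∑ b ∈ ((Fintype.piFinset fun _ : Fin (v.j + 1) => Finset.Icc (-(M₀ : ℤ)) (M₀ : ℤ)) ×ˢ kpr1Kinds).filter
            (fun b => ¬ Kpr1Heavy R ρ H K₁ K₂ (Q, b)), R.lam0 (kpr1On R ρ H (Q, b)) := by
        refine mul_le_mul_right (hcov.trans ((measure_biUnion_finset_le _ _).trans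
          (Finset.sum_le_sum fun Q _ => measure_biUnion_finset_le _ _))) _
    _ = ∑ Q ∈ Finset.univ.filter (fun Q => R.dep Q = s), ENNReal.ofReal K₁ *
          ∑ b ∈ ((Fintype.piFinset fun _ : Fin (v.j + 1) => Finset.Icc (-(M₀ : ℤ)) (M₀ : ℤ)) ×ˢ kpr1Kinds).filter
            (fun b => ¬ Kpr1Heavy R ρ H K₁ K₂ (Q, b)), R.lam0 (kpr1On R ρ H (Q, b)) := Finset.mul_sum _ _ _
    _ ≤ ∑ Q ∈ Finset.univ.filter (fun Q => R.dep Q = s), 2 * (ENNReal.ofReal (R.q Q) * R.νQ Q) :=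
        Finset.sum_le_sum fun Q _ => kpr1r_loss_label hL hK₁ hK₂ Q
    _ = 2 * ∑ Q ∈ Finset.univ.filter (fun Q => R.dep Q = s), ENNReal.ofReal (R.q Q) * R.νQ Q :=
        (Finset.mul_sum _ _ _).symm
    _ ≤ 2 * 1 := mul_le_mul_right (kpr_budget_depth hL s) _
    _ = 2 := mul_one _

/-- **L-252-KPR1-R7d** (70 l.)  `Ev0 \ F ⊆ ⋃ s ∈ depths, Ev0 ∩ {p | ¬ ∃ ..}`; `measure_biUnion_finset_le`, `prior (Ev0 ∩ A) = lam0 A`, `Finset.mul_sum`, `kpr1_loss_depth`, `Finset.sum_const`, `nsmul_eq_mul`. -/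
theorem kpr1_loss {R : KsRef v} {K : ℝ} (hL : R.OkLab K) {ρ H K₁ K₂ : ℝ} {M₀ : ℕ} (hρ : 0 < ρ) (hM : K ≤ 2 * ρ * M₀) (hK₁ : 1 ≤ K₁)
    (hK₂ : 3 * (2 * (M₀ : ℝ) + 1) ^ (v.j + 1) * K₁ ≤ K₂) :
    ENNReal.ofReal K₁ * R.prior (R.Ev0 \ kpr1F R ρ H K₁ K₂ M₀) ≤ 2 * R.depths.card := by
  have hsub : R.Ev0 \ kpr1F R ρ H K₁ K₂ M₀ ⊆ ⋃ s ∈ R.depths,
      ({p | ¬ ∃ c ∈ kpr1S R ρ H K₁ K₂ M₀, R.dep c.1 = s ∧ p ∈ kpr1On R ρ H c} ∩ R.Ev0) := by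
    rintro p ⟨hp, hnF⟩
    have hnF' : ¬ ∀ s ∈ R.depths, ∃ c ∈ kpr1S R ρ H K₁ K₂ M₀, R.dep c.1 = s ∧ p ∈ kpr1On R ρ H c := hnF
    by_contra hcon
    refine hnF' fun s hs => ?_
    by_contra hbad
    exact hcon (Set.mem_iUnion₂.2 ⟨s, hs, hbad, hp⟩)
  have hlam : ∀ A : Set (R.L × ℝ), R.prior (A ∩ R.Ev0) = R.lam0 A := fun A =>
    (Measure.restrict_apply' hL.m_Ev0).symm
  calc ENNReal.ofReal K₁ * R.prior (R.Ev0 \ kpr1F R ρ H K₁ K₂ M₀)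
      ≤ ENNReal.ofReal K₁ * ∑ s ∈ R.depths,
          R.lam0 {p | ¬ ∃ c ∈ kpr1S R ρ H K₁ K₂ M₀, R.dep c.1 = s ∧ p ∈ kpr1On R ρ H c} := by
        refine mul_le_mul_right ((measure_mono hsub).trans ((measure_biUnion_finset_le _ _).trans
          (le_of_eq (Finset.sum_congr rfl fun s _ => hlam _)))) _
    _ = ∑ s ∈ R.depths, ENNReal.ofReal K₁ *
          R.lam0 {p | ¬ ∃ c ∈ kpr1S R ρ H K₁ K₂ M₀, R.dep c.1 = s ∧ p ∈ kpr1On R ρ H c} := Finset.mul_sum _ _ _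
    _ ≤ ∑ _s ∈ R.depths, 2 := Finset.sum_le_sum fun s hs => kpr1_loss_depth hL hρ hM hK₁ hK₂ hs
    _ = 2 * R.depths.card := by rw [Finset.sum_const, nsmul_eq_mul, mul_comm]

/-! ## R8 : transfer to the unit coordinates `ℝ × ℝ^j` -/

/-- **L-252-KPR1-R8** (60 l.)  `fun u => f (kpr1E u) = f ∘ kpr1Iso j`.  `ContDiffOn.comp` with `(kpr1Iso j).contDiff` (or `LinearIsometryEquiv.contDiffOn_comp_iff`-type lemmas); the ball is the preimage of the ball (isometry: `dist (kpr1E u) uc = dist u (symm uc)`);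
`LinearIsometryEquiv.norm_iteratedFDeriv_comp_right`. -/
theorem kpr1_transfer {j : ℕ} (f : (Fin (j + 1) → ℝ) → ℝ) (uc : Fin (j + 1) → ℝ) (r : ℝ) (q : ℕ) :
    (∀ u : ℝ × (Fin j → ℝ), u ∈ Metric.ball ((kpr1Iso j).symm uc) r ↔ kpr1E u ∈ Metric.ball uc r) ∧
      (ContDiffOn ℝ q f (Metric.ball uc r) → ContDiffOn ℝ q (fun u => f (kpr1E u)) (Metric.ball ((kpr1Iso j).symm uc) r)) ∧
      ∀ (i : ℕ) (u : ℝ × (Fin j → ℝ)), ‖iteratedFDeriv ℝ i (fun u => f (kpr1E u)) u‖ = ‖iteratedFDeriv ℝ i f (kpr1E u)‖ := by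
  have h1 : ∀ u : ℝ × (Fin j → ℝ), u ∈ Metric.ball ((kpr1Iso j).symm uc) r ↔ kpr1E u ∈ Metric.ball uc r := by
    intro u
    rw [Metric.mem_ball, Metric.mem_ball, ← (kpr1Iso j).dist_map, (kpr1Iso j).apply_symm_apply]
    rfl
  refine ⟨h1, ?_, ?_⟩
  · intro hf
    exact hf.comp (kpr1Iso j).contDiff.contDiffOn fun u hu => (h1 u).1 hu
  · intro i u
    exact (kpr1Iso j).norm_iteratedFDeriv_comp_right f u i

/-! ## R9 : numerology -/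

/-- monotonicity of `a X ^ e` in `(a, e)` -/
theorem kpr1r_pw {a e C : ℕ} (ha : a ≤ C) (he : e ≤ C) {X : ℝ} (hX : 1 ≤ X) : (a : ℝ) * X ^ e ≤ C * X ^ C := by
  have h1 : X ^ e ≤ X ^ C := pow_le_pow_right₀ hX he
  have h2 : (a : ℝ) ≤ C := by exact_mod_cast ha
  have h3 : 0 ≤ X ^ e := by positivity
  calc (a : ℝ) * X ^ e ≤ C * X ^ e := mul_le_mul_of_nonneg_right h2 h3
    _ ≤ C * X ^ C := mul_le_mul_of_nonneg_left h1 (by positivity)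

/-- **L-252-KPR1-R9** (120 l.)  `Λ := c₀ (K K₁)^c₀ ≥ 4`, `ρ = 1/Λ`, `M₀ := ⌈K Λ / 2⌉₊` : `K ≤ 2ρ M₀` (`Nat.le_ceil`), `2 M₀ + 1 ≤ K Λ + 3 ≤ 2 K Λ` (`Nat.ceil_lt_add_one`), so `3 (2M₀+1)^n K₁ ≤ 3 (2 c₀)^n (K K₁)^((c₀+1) n + 1)`.   `C := c + 3 * (2 * c₀)^n + (c₀ + 1) * n + 8` or larger. -/
theorem kpr1_num_rec (n c₀ c : ℕ) (h0 : 4 ≤ c₀) : ∃ C : ℕ, 2 ≤ C ∧ ∀ K K₁ K₂ : ℝ, 1 ≤ K → 1 ≤ K₁ → (C : ℝ) * (K * K₁) ^ C ≤ K₂ →
    (c : ℝ) * (K * K₁) ^ c ≤ K₂ ∧ K ≤ 2 * (1 / (c₀ * (K * K₁) ^ c₀)) * (⌈K * (c₀ * (K * K₁) ^ c₀) / 2⌉₊ : ℕ) ∧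
      3 * (2 * ((⌈K * (c₀ * (K * K₁) ^ c₀) / 2⌉₊ : ℕ) : ℝ) + 1) ^ n * K₁ ≤ K₂ ∧
      (c : ℝ) * (K * K₂) ^ c ≤ C * (K * K₂) ^ C ∧ K₂ ≤ C * (K * K₂) ^ C ∧ 8 * K ^ 4 ≤ C * (K * K₂) ^ C ∧ 1 ≤ C * (K * K₂) ^ C * (1 / (c₀ * (K * K₁) ^ c₀)) := by
  obtain ⟨A, hA⟩ : ∃ A : ℕ, A = 3 * (2 * c₀) ^ n := ⟨_, rfl⟩
  obtain ⟨B, hB⟩ : ∃ B : ℕ, B = (c₀ + 1) * n := ⟨_, rfl⟩
  obtain ⟨C, hC⟩ : ∃ C : ℕ, C = c + A + B + 8 + c₀ := ⟨_, rfl⟩
  refine ⟨C, by omega, fun K K₁ K₂ hK hK₁ hK₂ => ?_⟩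
  obtain ⟨X, hXd⟩ : ∃ X : ℝ, X = K * K₁ := ⟨_, rfl⟩
  rw [← hXd] at hK₂ ⊢
  have hX : 1 ≤ X := by rw [hXd]; exact one_le_mul_of_one_le_of_one_le hK hK₁
  have hKX : K ≤ X := by rw [hXd]; exact le_mul_of_one_le_right (by linarith) hK₁
  have hK₁X : K₁ ≤ X := by rw [hXd]; exact le_mul_of_one_le_left (by linarith) hK
  have hXK₂ : X ≤ K₂ := by
    have := kpr1r_pw (a := 1) (e := 1) (C := C) (by omega) (by omega) hX
    simp only [Nat.cast_one, one_mul, pow_one] at this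
    exact this.trans hK₂
  obtain ⟨Y, hYd⟩ : ∃ Y : ℝ, Y = K * K₂ := ⟨_, rfl⟩
  rw [← hYd]
  have hXY : X ≤ Y := by
    rw [hXd, hYd]
    exact mul_le_mul_of_nonneg_left (hK₁X.trans hXK₂) (by linarith)
  have hY : 1 ≤ Y := hX.trans hXY
  have hK₂Y : K₂ ≤ Y := by rw [hYd]; exact le_mul_of_one_le_left (by linarith) hK
  have hKY : K ≤ Y := hKX.trans hXY
  obtain ⟨Λ, hΛd⟩ : ∃ Λ : ℝ, Λ = c₀ * X ^ c₀ := ⟨_, rfl⟩
  rw [← hΛd]
  have hc₀ : (4 : ℝ) ≤ c₀ := by exact_mod_cast h0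
  have hXp : 1 ≤ X ^ c₀ := one_le_pow₀ hX
  have hΛ : 4 ≤ Λ := by
    rw [hΛd]
    nlinarith
  have hΛ0 : 0 < Λ := by linarith
  have hKΛ : 4 ≤ K * Λ := by nlinarith
  obtain ⟨M, hMd⟩ : ∃ M : ℕ, M = ⌈K * Λ / 2⌉₊ := ⟨_, rfl⟩
  rw [← hMd]
  have hM1 : K * Λ / 2 ≤ M := by rw [hMd]; exact Nat.le_ceil _
  have hM2 : (M : ℝ) < K * Λ / 2 + 1 := by rw [hMd]; exact Nat.ceil_lt_add_one (by positivity)
  refine ⟨(kpr1r_pw (by omega) (by omega) hX).trans hK₂, ?_, ?_, kpr1r_pw (by omega) (by omega) hY, ?_, ?_, ?_⟩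
  · have : K = 2 * (1 / Λ) * (K * Λ / 2) := by
      field_simp
    calc K = 2 * (1 / Λ) * (K * Λ / 2) := this
      _ ≤ 2 * (1 / Λ) * M := mul_le_mul_of_nonneg_left hM1 (by positivity)
  · have h1 : 2 * (M : ℝ) + 1 ≤ (2 * c₀ : ℝ) * X ^ (c₀ + 1) := by
      have h2 : K * Λ ≤ c₀ * X ^ (c₀ + 1) := by
        rw [hΛd, pow_succ]
        have : K * (c₀ * X ^ c₀) ≤ X * (c₀ * X ^ c₀) := mul_le_mul_of_nonneg_right hKX (by positivity)
        linarith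
      linarith
    have h3 : (2 * (M : ℝ) + 1) ^ n ≤ ((2 * c₀ : ℝ) * X ^ (c₀ + 1)) ^ n := pow_le_pow_left₀ (by positivity) h1 n
    have h4 : ((2 * c₀ : ℝ) * X ^ (c₀ + 1)) ^ n = (2 * c₀ : ℝ) ^ n * X ^ B := by
      rw [mul_pow, ← pow_mul, hB]
    have h5 : (A : ℝ) = 3 * (2 * c₀ : ℝ) ^ n := by
      rw [hA]
      push_cast
      ring
    calc 3 * (2 * (M : ℝ) + 1) ^ n * K₁ ≤ 3 * ((2 * c₀ : ℝ) ^ n * X ^ B) * X := by
          rw [← h4]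
          have h6 : 0 ≤ (2 * (M : ℝ) + 1) ^ n := by positivity
          gcongr
      _ = (A : ℝ) * X ^ (B + 1) := by
          rw [h5, pow_succ]
          ring
      _ ≤ C * X ^ C := kpr1r_pw (by omega) (by omega) hX
      _ ≤ K₂ := hK₂
  · have := kpr1r_pw (a := 1) (e := 1) (C := C) (by omega) (by omega) hY
    simp only [Nat.cast_one, one_mul, pow_one] at this
    exact hK₂Y.trans this
  · have := kpr1r_pw (a := 8) (e := 4) (C := C) (by omega) (by omega) hY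
    have h2 : K ^ 4 ≤ Y ^ 4 := pow_le_pow_left₀ (by linarith) hKY 4
    push_cast at this
    linarith
  · rw [mul_one_div, le_div_iff₀ hΛ0, one_mul, hΛd]
    have := kpr1r_pw (a := c₀) (e := c₀) (C := C) (by omega) (by omega) hY
    have h2 : X ^ c₀ ≤ Y ^ c₀ := pow_le_pow_left₀ (by linarith) hXY c₀
    have h3 : (c₀ : ℝ) * X ^ c₀ ≤ c₀ * Y ^ c₀ := mul_le_mul_of_nonneg_left h2 (by positivity)
    exact h3.trans this

end

end Claimed.Agent.R252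

end PkPrepH1Rec

section PkPrepH1Main

/-!
# ROW 252 (S0492), unit PREP, hub H1: `kpr1_graph` = the statement of `kpr_graph` (Prep/Hubs.lean), PROVED from the leaves of `H1/Ana.lean`, `H1/Rec.lean`.     (helper29)
-/

set_option autoImplicit false

namespace Claimed.Agent.R252

open MeasureTheory MvPolynomial
open scoped ENNReal BigOperators

noncomputable section

variable {v : KbVer}

theorem kpr1_meas_val {n : ℕ} (P Ps : Kpr1Q n) (k : KsKind) : Measurable fun x => Ps.val x (P.gr k x) := by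
  unfold Kpr1Q.val
  have h1 := kpr1_meas_gr P k
  have h2 : Measurable fun x : Fin n → ℝ => eval x Ps.be := (MvPolynomial.continuous_eval _).measurable
  have h3 : Measurable fun x : Fin n → ℝ => eval x Ps.ga := (MvPolynomial.continuous_eval _).measurable
  exact ((measurable_const.mul (h1.pow_const 2)).add (h2.mul h1)).add h3

/-- what membership in `kpr1On` says -/
theorem kpr1_on_iff (R : KsRef v) (ρ H : ℝ) (c : Kpr1C R) (p : R.L × ℝ) :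
    p ∈ kpr1On R ρ H c ↔ p ∈ R.inc c.1 ∧ kpr1Idx ρ (kpr1X R c.1 p) = c.2.1 ∧ kpr1K (kpr1Tf R c.1).al (R.a (R.dep c.1)) H (kpr1Sg R c.1 p) = c.2.2 := by
  obtain ⟨Q, m, k⟩ := c
  simp only [kpr1On, kpr1Phi, Set.mem_inter_iff, Set.mem_setOf_eq, Prod.mk.injEq, true_and, kpr1X]

/-- all pointwise facts at a retained incidence of a candidate -/
theorem kpr1_on_facts {R : KsRef v} {K : ℝ} (hL : R.OkLab K) {ρ : ℝ} (hρ : 0 < ρ) (c : Kpr1C R) (p : R.L × ℝ) (hp : p ∈ R.Ev0) (hc : p ∈ kpr1On R ρ (8 * K ^ 3) c) :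
    ‖kpr1X R c.1 p‖ ≤ K ∧ ‖kpr1X R c.1 p - kpr1Ctr ρ c.2.1‖ ≤ ρ ∧ |eval (kpr1X R c.1 p) (kpr1Tf R c.1).disc| ≤ 3 * K ^ 2 ∧
      (c.2.2 ≠ KsKind.centre → 1 / (2 * K ^ 2) ≤ eval (kpr1X R c.1 p) (kpr1Tf R c.1).disc ∧
        ((kpr1Tf R c.1).al = 0 → 0 < c.2.2.sgn * eval (kpr1X R c.1 p) (kpr1Tf R c.1).be)) ∧
      (c.2.2 = KsKind.centre → (kpr1Tf R c.1).al ≠ 0) ∧
      |R.w p.1 p.2 - (kpr1Tf R c.1).gr c.2.2 (kpr1X R c.1 p)| ≤ 8 * K ^ 4 * R.a (R.dep c.1) ∧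
      |(kpr1Nf R c.1).val (kpr1X R c.1 p) ((kpr1Tf R c.1).gr c.2.2 (kpr1X R c.1 p))| ≤ 41 * K ^ 9 := by
  obtain ⟨hinc, hidx, hk⟩ := (kpr1_on_iff R ρ _ c p).1 hc
  obtain ⟨hpt, hdw⟩ := kpr1_pt hL c.1 p ⟨hp, hinc⟩
  obtain ⟨ha0, ha1⟩ := kpr1_a_bd hL c.1
  have hσ : kpr1Sg R c.1 p = true ↔ 0 < (kpr1Tf R c.1).dw (kpr1X R c.1 p) (R.w p.1 p.2) := by
    rw [hdw]
    unfold kpr1Sg
    exact decide_eq_true_iff
  have h1 := kpr1_pt_disc hpt hL.K_ge ha0 hσ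
  have h2 := kpr1_pt_dist hpt hL.K_ge ha0 hσ
  rw [hk] at h1 h2
  refine ⟨hpt.x_bd, ?_, h1.1, h1.2.1, h1.2.2, h2, kpr1_pt_nat hpt hL.K_ge ha0 ha1 h2⟩
  rw [← hidx]
  exact kpr1_idx_ctr hρ _

/-- **every heavy candidate is a good entry** -/
theorem kpr1_good (v : KbVer) (ord : ℕ) : ∃ c₀ c : ℕ, 4 ≤ c₀ ∧ ∀ (R : KsRef v) (K K₁ K₂ ρ : ℝ) (x : Kpr1C R), R.OkLab K → 1 ≤ K₁ → (c : ℝ) * (K * K₁) ^ c ≤ K₂ →
    ρ = 1 / (c₀ * (K * K₁) ^ c₀) → Kpr1Heavy R ρ (8 * K ^ 3) K₁ K₂ x →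
    Kpr1Good ord (kpr1Tf R x.1) (kpr1Nf R x.1) x.2.2 (kpr1Ctr ρ x.2.1) ρ (c * (K * K₂) ^ c) := by
  obtain ⟨c₀, c, h4, hc0, hana⟩ := kpr1_ana (v.j + 1) ord
  refine ⟨c₀, c, h4, ?_⟩
  intro R K K₁ K₂ ρ x hL hK₁ hK₂ hρ hx
  have hK := hL.K_ge
  have hKK : 1 ≤ K * K₁ := by nlinarith
  have hK₂1 : 1 ≤ K₂ := by
    refine le_trans ?_ hK₂
    have h1 : (1 : ℝ) ≤ c := by exact_mod_cast (by omega : 1 ≤ c)
    have h2 : 1 ≤ (K * K₁) ^ c := one_le_pow₀ hKK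
    nlinarith
  have hρ0 : 0 < ρ := by
    rw [hρ]
    have h1 : (0 : ℝ) < c₀ := by exact_mod_cast (by omega : 0 < c₀)
    positivity
  have hsub : kpr1On R ρ (8 * K ^ 3) x ⊆ R.inc x.1 := Set.inter_subset_left
  obtain ⟨p₀, hp₀, hp₀c⟩ := kpr1_occ hL _ hx.pos
  obtain ⟨f1, f2, -, f4, f5, -, -⟩ := kpr1_on_facts hL hρ0 x p₀ hp₀ hp₀c
  have hd : Measurable fun y : Fin (v.j + 1) → ℝ => eval y (kpr1Tf R x.1).disc := (MvPolynomial.continuous_eval _).measurable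
  have hm₁ : MeasurableSet (Metric.closedBall (0 : Fin (v.j + 1) → ℝ) K ∩ {y | |eval y (kpr1Tf R x.1).disc| ≤ 3 * K ^ 2}) :=
    Metric.isClosed_closedBall.measurableSet.inter (measurableSet_le hd.abs measurable_const)
  have hm₂ : MeasurableSet (Metric.closedBall (kpr1Ctr ρ x.2.1) ρ ∩
      {y | |(kpr1Nf R x.1).val y ((kpr1Tf R x.1).gr x.2.2 y)| ≤ 41 * K ^ 9}) :=
    Metric.isClosed_closedBall.measurableSet.inter (measurableSet_le (kpr1_meas_val _ _ _).abs measurable_const)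
  have hv₁ := kpr1_vol_heavy hL hK₁ x.1 (R.inc x.1) _ hm₁ subset_rfl (fun p hp => by
    obtain ⟨hpt, hdw⟩ := kpr1_pt hL x.1 p hp
    have hσ : kpr1Sg R x.1 p = true ↔ 0 < (kpr1Tf R x.1).dw (kpr1X R x.1 p) (R.w p.1 p.2) := by
      rw [hdw]
      unfold kpr1Sg
      exact decide_eq_true_iff
    exact ⟨by rw [mem_closedBall_zero_iff]; exact hpt.x_bd, (kpr1_pt_disc hpt hK (kpr1_a_bd hL x.1).1 hσ).1⟩)
    (lt_of_lt_of_le hx.pos (measure_mono hsub)) hx.lab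
  have hv₂ := kpr1_vol_heavy hL hK₂1 x.1 (kpr1On R ρ (8 * K ^ 3) x) _ hm₂ hsub (fun p hp => by
    obtain ⟨-, g2, -, -, -, -, g7⟩ := kpr1_on_facts hL hρ0 x p hp.1 hp.2
    exact ⟨by rw [mem_closedBall_iff_norm]; exact g2, g7⟩) hx.pos hx.ent
  exact hana (kpr1Tf R x.1) (kpr1Nf R x.1) x.2.2 (kpr1Ctr ρ x.2.1) (kpr1X R x.1 p₀) K K₁ K₂ ρ _ _
    (kpr1_form_spec R x.1 (hL.tst_adm x.1).1).1 (kpr1_form_spec R x.1 (hL.nat_adm _).1).1 hK hK₁ hK₂ hρ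
    Set.inter_subset_left hv₁ (fun y hy => hy.2) hm₂ Set.inter_subset_left hv₂ (fun y hy => hy.2) f1 f2 f4 f5

/-- the tests on the graph of a candidate, in unit coordinates -/
theorem kpr1_onG {R : KsRef v} {K : ℝ} (hL : R.OkLab K) (Q : R.Lab) (k : KsKind) (u : ℝ × KbB v) :
    R.tst Q (R.ofUnit Q u).1 (R.ofUnit Q u).2 ((kpr1Tf R Q).gr k (kpr1E (R.unit Q (R.ofUnit Q u)))) = (kpr1Tf R Q).val (kpr1E u) ((kpr1Tf R Q).gr k (kpr1E u)) ∧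
      kbDw (R.tst Q) (R.ofUnit Q u).1 (R.ofUnit Q u).2 ((kpr1Tf R Q).gr k (kpr1E (R.unit Q (R.ofUnit Q u)))) = (kpr1Tf R Q).dw (kpr1E u) ((kpr1Tf R Q).gr k (kpr1E u)) ∧
      R.nat (R.lpar Q) (R.ofUnit Q u).1 (R.ofUnit Q u).2 ((kpr1Tf R Q).gr k (kpr1E (R.unit Q (R.ofUnit Q u)))) = (kpr1Nf R Q).val (kpr1E u) ((kpr1Tf R Q).gr k (kpr1E u)) := by
  rw [kpr_unit_ofUnit hL]
  exact ⟨(kpr1_form_spec R Q (hL.tst_adm Q).1).2 u _, (kpr1_form_dw (kpr1_form_spec R Q (hL.tst_adm Q).1) u _).1, (kpr1_form_spec R Q (hL.nat_adm _).1).2 u _⟩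

/-- **HUB H1** -/
theorem kpr1_graph (v : KbVer) (ord : ℕ) : ∃ C : ℕ, ∀ (R : KsRef v) (K K₁ K₂ : ℝ), R.ord = ord → R.OkLab K → R.depths.Nonempty → 1 ≤ K₁ → (C : ℝ) * (K * K₁) ^ C ≤ K₂ →
    ENNReal.ofReal (C * K ^ C) * R.depths.card < ENNReal.ofReal K₁ * R.prior R.Ev0 →
    ∃ (D : KsEntData R) (F : Set (R.L × ℝ)), MeasurableSet F ∧ ENNReal.ofReal K₁ * R.prior (R.Ev0 \ F) ≤ ENNReal.ofReal (C * K ^ C) * R.depths.card ∧
      ((R.withEnt D).cut F).OkEnt (C * (K * K₂) ^ C) ∧ ((R.withEnt D).cut F).EntFac := by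
  obtain ⟨c₀, c, h4, hgood⟩ := kpr1_good v ord
  obtain ⟨C, hC2, hnum⟩ := kpr1_num_rec (v.j + 1) c₀ c h4
  refine ⟨C, ?_⟩
  intro R K K₁ K₂ hord hL hne hK₁ hK₂ hmass
  have hK := hL.K_ge
  obtain ⟨n1, n2, n3, n4, n5, n6, n7⟩ := hnum K K₁ K₂ hK hK₁ hK₂
  obtain ⟨ρ, hρ⟩ : ∃ ρ : ℝ, ρ = 1 / (c₀ * (K * K₁) ^ c₀) := ⟨_, rfl⟩
  obtain ⟨M₀, hM₀⟩ : ∃ M₀ : ℕ, M₀ = ⌈K * (c₀ * (K * K₁) ^ c₀) / 2⌉₊ := ⟨_, rfl⟩
  obtain ⟨K', hK'⟩ : ∃ K' : ℝ, K' = C * (K * K₂) ^ C := ⟨_, rfl⟩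
  rw [← hρ, ← hM₀] at n2
  rw [← hM₀] at n3
  rw [← hρ] at n7
  rw [← hK'] at n4 n5 n6 n7 ⊢
  have hKK : 1 ≤ K * K₁ := by nlinarith
  have hc₀ : (4 : ℝ) ≤ c₀ := by exact_mod_cast h4
  have hΛ4 : 4 ≤ (c₀ : ℝ) * (K * K₁) ^ c₀ := by
    have h2 : 1 ≤ (K * K₁) ^ c₀ := one_le_pow₀ hKK
    nlinarith
  have hρ0 : 0 < ρ := by rw [hρ]; positivity
  have hρ1 : ρ ≤ 1 := by
    rw [hρ, div_le_one (by linarith)]
    linarith
  obtain ⟨S, hS⟩ : ∃ S, S = kpr1S R ρ (8 * K ^ 3) K₁ K₂ M₀ := ⟨_, rfl⟩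
  have hSall : S ⊆ kpr1All R M₀ := by
    classical
    rw [hS]
    exact Finset.filter_subset _ _
  have hSheavy : ∀ x ∈ S, Kpr1Heavy R ρ (8 * K ^ 3) K₁ K₂ x := by
    classical
    intro x hx
    rw [hS] at hx
    exact (Finset.mem_filter.1 hx).2
  have hFm := kpr1_meas_F hL ρ (8 * K ^ 3) K₁ K₂ M₀
  have hloss := kpr1_loss (H := 8 * K ^ 3) hL hρ0 n2 hK₁ n3
  have hCK : (2 : ℝ≥0∞) ≤ ENNReal.ofReal (C * K ^ C) := by
    rw [← ENNReal.ofReal_ofNat]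
    apply ENNReal.ofReal_le_ofReal
    have h1 : (2 : ℝ) ≤ C := by exact_mod_cast hC2
    have h2 : 1 ≤ K ^ C := one_le_pow₀ hK
    nlinarith
  have hloss' : ENNReal.ofReal K₁ * R.prior (R.Ev0 \ kpr1F R ρ (8 * K ^ 3) K₁ K₂ M₀) ≤ ENNReal.ofReal (C * K ^ C) * R.depths.card :=
    hloss.trans (mul_le_mul' hCK le_rfl)
  -- a kept incidence exists
  obtain ⟨p₀, hp₀, hp₀F⟩ : ∃ p, p ∈ R.Ev0 ∧ p ∈ kpr1F R ρ (8 * K ^ 3) K₁ K₂ M₀ := by
    by_contra hcon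
    push Not at hcon
    have h1 : R.Ev0 \ kpr1F R ρ (8 * K ^ 3) K₁ K₂ M₀ = R.Ev0 := by
      ext p
      exact ⟨fun h => h.1, fun h => ⟨h, hcon p h⟩⟩
    rw [h1] at hloss'
    exact absurd hmass (not_lt.2 hloss')
  obtain ⟨s₀, hs₀⟩ := hne
  obtain ⟨x₀, hx₀, -, -⟩ := hp₀F s₀ hs₀
  rw [← hS] at hx₀
  -- the value of the selector on the kept incidences
  have hsel : ∀ s ∈ R.depths, ∀ p ∈ R.Ev0 ∩ kpr1F R ρ (8 * K ^ 3) K₁ K₂ M₀, ∃ e : {x // x ∈ S}, kpr1Sel R ρ (8 * K ^ 3) S ⟨x₀, hx₀⟩ s p = e ∧ R.dep e.1.1 = s ∧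
      p ∈ kpr1On R ρ (8 * K ^ 3) e.1 := by
    intro s hs p hp
    obtain ⟨x, hx, hxs, hxp⟩ := hp.2 s hs
    rw [← hS] at hx
    exact ⟨⟨x, hx⟩, kpr1_sel_spec hL S _ ⟨x, hx⟩ hxs hxp, hxs, hxp⟩
  have hG : ∀ e : {x // x ∈ S}, Kpr1Good ord (kpr1Tf R e.1.1) (kpr1Nf R e.1.1) e.1.2.2 (kpr1Ctr ρ e.1.2.1) ρ (c * (K * K₂) ^ c) := fun e =>
    hgood R K K₁ K₂ ρ e.1 hL hK₁ n1 hρ (hSheavy e.1 e.2)
  refine ⟨kpr1Dat R ρ (8 * K ^ 3) S ⟨x₀, hx₀⟩, kpr1F R ρ (8 * K ^ 3) K₁ K₂ M₀, hFm, hloss', ?_, ?_⟩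
  · have hK'c : (c : ℝ) * (K * K₂) ^ c ≤ K' := n4
    refine ⟨?_, ?_, ?_, ?_, ?_, ?_, ?_, ?_, ?_, ?_, ?_⟩
    · -- m_eG
      intro (e : {x // x ∈ S})
      exact (kpr1_meas_gr _ _).comp (kpr1_meas_unit R _)
    · -- m_ent
      intro s
      exact kpr1_sel_lab hL ρ _ S _ s
    · -- lab
      intro s hs p hp
      obtain ⟨e, he, hes, hep⟩ := hsel s hs p hp
      show R.dep (kpr1Sel R ρ (8 * K ^ 3) S ⟨x₀, hx₀⟩ s p).1.1 = s ∧ p ∈ R.inc (kpr1Sel R ρ (8 * K ^ 3) S ⟨x₀, hx₀⟩ s p).1.1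
      rw [he]
      exact ⟨hes, hep.1⟩
    · -- ent_card
      intro Q
      refine (kpr1_card R M₀ S hSall Q).trans (le_trans ?_ (n3.trans n5))
      have h1 : 0 ≤ 3 * (2 * (M₀ : ℝ) + 1) ^ (v.j + 1) := by positivity
      nlinarith
    · -- ent_rad
      intro e
      exact n7
    · -- ent_rad_le
      intro e
      exact hρ1
    · -- ent_cov
      intro s hs p hp
      obtain ⟨e, he, hes, hep⟩ := hsel s hs p hp
      obtain ⟨-, g2, -, -, -, g6, -⟩ := kpr1_on_facts hL hρ0 e.1 p hp.1 hep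
      show (p ∈ R.inc (kpr1Sel R ρ (8 * K ^ 3) S ⟨x₀, hx₀⟩ s p).1.1 ∧
          dist (R.unit (kpr1Sel R ρ (8 * K ^ 3) S ⟨x₀, hx₀⟩ s p).1.1 (R.base p)) ((kpr1Iso v.j).symm (kpr1Ctr ρ (kpr1Sel R ρ (8 * K ^ 3) S ⟨x₀, hx₀⟩ s p).1.2.1)) ≤ ρ) ∧
        |R.w p.1 p.2 - (kpr1Tf R (kpr1Sel R ρ (8 * K ^ 3) S ⟨x₀, hx₀⟩ s p).1.1).gr (kpr1Sel R ρ (8 * K ^ 3) S ⟨x₀, hx₀⟩ s p).1.2.2
          (kpr1E (R.unit (kpr1Sel R ρ (8 * K ^ 3) S ⟨x₀, hx₀⟩ s p).1.1 (R.base p)))| ≤ K' * R.a s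
      rw [he]
      refine ⟨⟨hep.1, ?_⟩, ?_⟩
      · rw [← (kpr1Iso v.j).dist_map, (kpr1Iso v.j).apply_symm_apply, dist_eq_norm]
        exact g2
      · rw [← hes]
        exact g6.trans (mul_le_mul_of_nonneg_right n6 (kpr1_a_bd hL e.1.1).1.le)
    · -- ent_root
      intro (e : {x // x ∈ S}) (hk : e.1.2.2 ≠ KsKind.centre) u (hu : u ∈ Metric.ball ((kpr1Iso v.j).symm (kpr1Ctr ρ e.1.2.1)) (2 * ρ))
      obtain ⟨o1, o2, -⟩ := kpr1_onG hL e.1.1 e.1.2.2 u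
      obtain ⟨r1, r2, r3⟩ := (hG e).root hk (kpr1E u) (((kpr1_transfer (fun _ => (0 : ℝ)) (kpr1Ctr ρ e.1.2.1) (2 * ρ) 0).1 u).1 hu)
      refine ⟨o1.trans r1, ?_, ?_⟩
      · refine r2.trans ?_
        rw [← o2]
        refine mul_le_mul_of_nonneg_right hK'c ?_
        by_contra hneg
        push Not at hneg
        rw [o2] at hneg
        have h0 : 0 ≤ (c : ℝ) * (K * K₂) ^ c := by
          have hK₂0 : 0 ≤ K₂ := le_trans (by positivity) n3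
          have : 0 ≤ K * K₂ := by positivity
          positivity
        nlinarith
      · exact (le_of_eq (congrArg _ o2)).trans (r3.trans hK'c)
    · -- ent_ctr
      intro (e : {x // x ∈ S}) (hk : e.1.2.2 = KsKind.centre) u (hu : u ∈ Metric.ball ((kpr1Iso v.j).symm (kpr1Ctr ρ e.1.2.1)) (2 * ρ))
      obtain ⟨-, o2, -⟩ := kpr1_onG hL e.1.1 e.1.2.2 u
      exact o2.trans ((hG e).ctr hk (kpr1E u) (((kpr1_transfer (fun _ => (0 : ℝ)) (kpr1Ctr ρ e.1.2.1) (2 * ρ) 0).1 u).1 hu))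
    · -- ent_smooth
      intro (e : {x // x ∈ S})
      have h1 := (kpr1_transfer (fun x => (kpr1Nf R e.1.1).val x ((kpr1Tf R e.1.1).gr e.1.2.2 x)) (kpr1Ctr ρ e.1.2.1) (2 * ρ) ord).2.1 (hG e).smooth
      have h2 : (fun u : ℝ × KbB v => R.nat (R.lpar e.1.1) (R.ofUnit e.1.1 u).1 (R.ofUnit e.1.1 u).2 ((kpr1Tf R e.1.1).gr e.1.2.2 (kpr1E (R.unit e.1.1 (R.ofUnit e.1.1 u)))))
          = fun u => (kpr1Nf R e.1.1).val (kpr1E u) ((kpr1Tf R e.1.1).gr e.1.2.2 (kpr1E u)) := funext fun u => (kpr1_onG hL e.1.1 e.1.2.2 u).2.2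
      rw [← h2, ← hord] at h1
      exact h1
    · -- ent_der
      intro (e : {x // x ∈ S}) u (hu : u ∈ Metric.ball ((kpr1Iso v.j).symm (kpr1Ctr ρ e.1.2.1)) (2 * ρ)) i (hi : i ≤ R.ord)
      obtain ⟨t1, -, t3⟩ := kpr1_transfer (fun x => (kpr1Nf R e.1.1).val x ((kpr1Tf R e.1.1).gr e.1.2.2 x)) (kpr1Ctr ρ e.1.2.1) (2 * ρ) ord
      have h2 : (fun u : ℝ × KbB v => R.nat (R.lpar e.1.1) (R.ofUnit e.1.1 u).1 (R.ofUnit e.1.1 u).2 ((kpr1Tf R e.1.1).gr e.1.2.2 (kpr1E (R.unit e.1.1 (R.ofUnit e.1.1 u)))))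
          = fun u => (kpr1Nf R e.1.1).val (kpr1E u) ((kpr1Tf R e.1.1).gr e.1.2.2 (kpr1E u)) := funext fun u => (kpr1_onG hL e.1.1 e.1.2.2 u).2.2
      have h3 := (hG e).der (kpr1E u) ((t1 u).1 hu) i (hord ▸ hi)
      rw [← t3 i u, ← h2] at h3
      exact h3.trans hK'c
  · -- EntFac
    intro s hs
    refine ⟨kpr1Fac R ρ (8 * K ^ 3) S ⟨x₀, hx₀⟩, fun Q σ e => kpr1_fac_meas R ρ _ S _ Q σ e, ?_⟩
    intro p hp
    obtain ⟨e, he, hes, hep⟩ := hsel s hs p hp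
    show kpr1Sel R ρ (8 * K ^ 3) S ⟨x₀, hx₀⟩ s p = kpr1Fac R ρ (8 * K ^ 3) S ⟨x₀, hx₀⟩ (kpr1Sel R ρ (8 * K ^ 3) S ⟨x₀, hx₀⟩ s p).1.1 (R.base p)
      (kpr1Sg R (kpr1Sel R ρ (8 * K ^ 3) S ⟨x₀, hx₀⟩ s p).1.1 p)
    rw [he]
    have h1 : kpr1Phi R ρ (8 * K ^ 3) e.1.1 (R.base p) (kpr1Sg R e.1.1 p) = e.1 := hep.2
    unfold kpr1Fac
    rw [dif_pos (by rw [h1]; exact e.2)]
    exact Subtype.ext h1.symm

end

end Claimed.Agent.R252

end PkPrepH1Main
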